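import Vale.Agent.P043.R2.Red.Defs

/-!
# Averaging over lattice periodic sets in the plane
-/

namespace Vale.Agent.P043.R2

open MeasureTheory Vale.Agent.P043.Eu

/-- the plane -/
abbrev E2 := Fin 2 → ℝ

/-- the number of translates `a + E`, `a ∈ A`, which contain `x` -/
noncomputable def cnt (A E : Set E2) (x : E2) : ENNReal :=
  ∑' a : A, E.indicator (fun _ => (1 : ENNReal)) (x - a)

/-- points of `A` are `ρ`-separated in the sup norm -/
def Sepr (ρ : ℝ) (A : Set E2) : Prop := ∀ a ∈ A, ∀ b ∈ A, a ≠ b → ∃ i, ρ ≤ |a i - b i|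

/-- membership in `E` is locally constant from the upper right -/
def RO (E : Set E2) : Prop :=
  ∀ x, ∃ ε > 0, ∀ y : E2, (∀ i, x i ≤ y i ∧ y i < x i + ε) → (y ∈ E ↔ x ∈ E)

theorem Sepr.countable {ρ : ℝ} (hρ : 0 < ρ) {A : Set E2} (hsep : Sepr ρ A) : A.Countable := by
  have h : A.PairwiseDisjoint fun a => Metric.ball a (ρ / 2 : ℝ) := by
    intro a ha b hb hab
    rw [Function.onFun, Set.disjoint_left]
    intro x hx hx'
    obtain ⟨i, hi⟩ := hsep a ha b hb hab
    rw [Metric.mem_ball] at hx hx'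
    have h1 : dist a b < ρ := by
      calc dist a b ≤ dist a x + dist x b := dist_triangle _ _ _
        _ = dist x a + dist x b := by rw [dist_comm a x]
        _ < ρ / 2 + ρ / 2 := add_lt_add hx hx'
        _ = ρ := by ring
    have h2 : dist (a i) (b i) ≤ dist a b := dist_le_pi_dist a b i
    rw [Real.dist_eq] at h2
    linarith only [hi, h1, h2]
  refine h.countable_of_isOpen (fun a _ => Metric.isOpen_ball) (fun a _ => ?_)
  exact Metric.nonempty_ball.2 (by linarith)

/-- a separated set has finitely many points in a bounded set -/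
theorem Sepr.finite {ρ : ℝ} (hρ : 0 < ρ) {A : Set E2} (hsep : Sepr ρ A) {B : Set E2}
    (hB : Bornology.IsBounded B) : (A ∩ B).Finite := by
  -- floor map to a finite set of integer points
  obtain ⟨R, hR⟩ := hB.subset_closedBall 0
  set M : ℤ := ⌈|R| / (ρ / 2)⌉ + 1 with hM
  let f : E2 → (Fin 2 → ℤ) := fun x i => ⌊x i / (ρ / 2)⌋
  have hfin : (Set.Icc (fun _ => -M : Fin 2 → ℤ) (fun _ => M)).Finite := Set.finite_Icc _ _
  refine Set.Finite.of_finite_image (f := f) (hfin.subset ?_) ?_
  · rintro _ ⟨x, ⟨_, hx⟩, rfl⟩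
    have h1 : ∀ i, |x i| ≤ |R| := by
      intro i
      have h2 := hR hx
      rw [Metric.mem_closedBall, dist_zero_right] at h2
      have h3 := norm_le_pi_norm x i
      rw [Real.norm_eq_abs] at h3
      exact h3.trans (h2.trans (le_abs_self R))
    have h4 : ∀ i, -(M : ℝ) ≤ x i / (ρ / 2) ∧ x i / (ρ / 2) ≤ M := by
      intro i
      have h5 := abs_le.1 (h1 i)
      have h6 : |R| / (ρ / 2) ≤ (⌈|R| / (ρ / 2)⌉ : ℝ) := Int.le_ceil _
      have h7 : x i / (ρ / 2) ≤ |R| / (ρ / 2) := div_le_div_of_nonneg_right h5.2 (by linarith)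
      have h8 : -(|R| / (ρ / 2)) ≤ x i / (ρ / 2) := by
        rw [← neg_div]
        exact div_le_div_of_nonneg_right h5.1 (by linarith)
      rw [hM]
      push_cast
      constructor <;> linarith
    constructor
    · intro i
      exact Int.le_floor.2 (by push_cast; exact (h4 i).1)
    · intro i
      have := (h4 i).2
      have h9 : (⌊x i / (ρ / 2)⌋ : ℝ) ≤ M := (Int.floor_le _).trans this
      exact_mod_cast h9
  · intro x hx y hy hxy
    by_contra hne
    obtain ⟨i, hi⟩ := hsep x hx.1 y hy.1 hne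
    have h1 : ⌊x i / (ρ / 2)⌋ = ⌊y i / (ρ / 2)⌋ := congrFun hxy i
    have h2 := Int.abs_sub_lt_one_of_floor_eq_floor h1
    rw [← sub_div, abs_div, abs_of_pos (by linarith : (0:ℝ) < ρ / 2), div_lt_one (by linarith)] at h2
    linarith

theorem cnt_measurable {A E : Set E2} (hA : A.Countable) (hE : MeasurableSet E) :
    Measurable (cnt A E) := by
  have : Countable A := hA.to_subtype
  unfold cnt
  refine Measurable.tsum fun a => ?_
  have h1 : Measurable fun x : E2 => x - (a : E2) := measurable_id.sub_const _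
  exact (measurable_const.indicator hE).comp h1

theorem mem_of_cnt_ne_zero {A E : Set E2} {x : E2} (h : cnt A E x ≠ 0) :
    ∃ a ∈ A, x - a ∈ E := by
  by_contra hne
  push Not at hne
  apply h
  unfold cnt
  rw [ENNReal.tsum_eq_zero]
  intro a
  exact Set.indicator_of_notMem (hne a a.2) _

theorem one_le_cnt {A E : Set E2} {x a : E2} (ha : a ∈ A) (h : x - a ∈ E) :
    1 ≤ cnt A E x := by
  unfold cnt
  have h1 := ENNReal.le_tsum (f := fun a : A => E.indicator (fun _ => (1 : ENNReal)) (x - a))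
    ⟨a, ha⟩
  refine le_trans ?_ h1
  simp only [Set.indicator_of_mem h, le_refl]

theorem cnt_eq_zero_iff {A E : Set E2} {x : E2} : cnt A E x = 0 ↔ ∀ a ∈ A, x - a ∉ E := by
  constructor
  · intro h a ha hx
    have := one_le_cnt ha hx
    rw [h] at this
    exact absurd this (by norm_num)
  · intro h
    by_contra h0
    obtain ⟨a, ha, hx⟩ := mem_of_cnt_ne_zero h0
    exact h a ha hx

theorem cnt_eq_one {A E : Set E2} {x a : E2} (ha : a ∈ A) (h : x - a ∈ E)
    (hu : ∀ b ∈ A, x - b ∈ E → b = a) : cnt A E x = 1 := by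
  unfold cnt
  rw [tsum_eq_single (⟨a, ha⟩ : A)]
  · simp only [Set.indicator_of_mem h]
  · intro b hb
    apply Set.indicator_of_notMem
    intro h1
    exact hb (Subtype.ext (hu b b.2 h1))

theorem two_le_cnt {A E : Set E2} {x a b : E2} (ha : a ∈ A) (hb : b ∈ A) (hab : a ≠ b)
    (hxa : x - a ∈ E) (hxb : x - b ∈ E) : 2 ≤ cnt A E x := by
  classical
  unfold cnt
  have hne : (⟨a, ha⟩ : A) ≠ ⟨b, hb⟩ := fun h => hab (congrArg Subtype.val h)
  have h1 := ENNReal.sum_le_tsum (f := fun a : A => E.indicator (fun _ => (1 : ENNReal)) (x - a))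
    {(⟨a, ha⟩ : A), ⟨b, hb⟩}
  refine le_trans ?_ h1
  rw [Finset.sum_pair hne]
  simp only [Set.indicator_of_mem hxa, Set.indicator_of_mem hxb]
  norm_num

theorem cnt_eq_one_iff {A E : Set E2} {x : E2} :
    cnt A E x = 1 ↔ ∃! a, a ∈ A ∧ x - a ∈ E := by
  constructor
  · intro h
    obtain ⟨a, ha, hx⟩ := mem_of_cnt_ne_zero (by rw [h]; exact one_ne_zero)
    refine ⟨a, ⟨ha, hx⟩, ?_⟩
    rintro b ⟨hb, hxb⟩
    by_contra hne
    have := two_le_cnt hb ha hne hxb hx
    rw [h] at this
    exact absurd this (by norm_num)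
  · rintro ⟨a, ⟨ha, hx⟩, hu⟩
    exact cnt_eq_one ha hx fun b hb hxb => hu b ⟨hb, hxb⟩

theorem cnt_le_one {A E : Set E2} {x : E2}
    (h : ∀ a ∈ A, ∀ b ∈ A, x - a ∈ E → x - b ∈ E → a = b) : cnt A E x ≤ 1 := by
  by_cases h0 : cnt A E x = 0
  · rw [h0]; exact bot_le
  · obtain ⟨a, ha, hx⟩ := mem_of_cnt_ne_zero h0
    exact (cnt_eq_one ha hx fun b hb hxb => h b hb a ha hxb hx).le

theorem mem_add_iff {A : Set E2} {b : Module.Basis (Fin 2) ℝ E2}
    (hper : ∀ i, ∀ a, b i + a ∈ A ↔ a ∈ A) {v : E2}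
    (hv : v ∈ Submodule.span ℤ (Set.range b)) : ∀ a, v + a ∈ A ↔ a ∈ A := by
  refine Submodule.span_induction (p := fun v _ => ∀ a, v + a ∈ A ↔ a ∈ A) ?_ ?_ ?_ ?_ hv
  · rintro _ ⟨i, rfl⟩ a
    exact hper i a
  · intro a; simp
  · intro x y _ _ hx hy a
    rw [add_assoc, hx, hy]
  · intro n x _ hx a
    have hnat : ∀ (m : ℕ) (a : E2), (m : ℤ) • x + a ∈ A ↔ a ∈ A := by
      intro m
      induction m with
      | zero => intro a; simp
      | succ m ih =>
        intro a
        have e : ((m + 1 : ℕ) : ℤ) • x + a = (m : ℤ) • x + (x + a) := by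
          push_cast
          rw [add_smul, one_smul, add_assoc]
        rw [e, ih, hx]
    obtain ⟨m, rfl | rfl⟩ := n.eq_nat_or_neg
    · exact hnat m a
    · have e : a = (m : ℤ) • x + (-(m : ℤ) • x + a) := by
        rw [← add_assoc, ← add_smul]; simp
      conv_rhs => rw [e]
      rw [hnat]

/-- the number of points of `A` in a translate of the fundamental domain -/
theorem count_dom {A : Set E2} {b : Module.Basis (Fin 2) ℝ E2}
    (hper : ∀ i, ∀ a, b i + a ∈ A ↔ a ∈ A) (z : E2) :
    ∑' a : A, (ZSpan.fundamentalDomain b).indicator (fun _ => (1 : ENNReal)) (z + a) =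
      ∑' a : A, (ZSpan.fundamentalDomain b).indicator (fun _ => (1 : ENNReal)) (a : E2) := by
  classical
  -- the fractional part map
  have hfr : ∀ x : E2, ∃ v ∈ Submodule.span ℤ (Set.range b), ZSpan.fract b x = v + x := by
    intro x
    refine ⟨-(ZSpan.floor b x : E2), ?_, ?_⟩
    · exact Submodule.neg_mem _ (ZSpan.floor b x).2
    · rw [ZSpan.fract_apply]; abel
  have hA : ∀ x : E2, ZSpan.fract b x ∈ A ↔ x ∈ A := by
    intro x
    obtain ⟨v, hv, h⟩ := hfr x
    rw [h]
    exact mem_add_iff hper hv x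
  -- both sums are cardinalities
  have key : ∀ (D D' : Set E2) (f : {a : A // (a : E2) ∈ D} ≃ {a : A // (a : E2) ∈ D'}),
      ∑' a : A, D.indicator (fun _ => (1 : ENNReal)) (a : E2) =
        ∑' a : A, D'.indicator (fun _ => (1 : ENNReal)) (a : E2) := by
    intro D D' f
    have h1 : ∀ D : Set E2, ∑' a : A, D.indicator (fun _ => (1 : ENNReal)) (a : E2) =
        ∑' _ : {a : A // (a : E2) ∈ D}, (1 : ENNReal) := by
      intro D
      have h2 := tsum_subtype {a : A | (a : E2) ∈ D} (fun _ => (1 : ENNReal))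
      rw [show (∑' _ : {a : A // (a : E2) ∈ D}, (1 : ENNReal)) =
        ∑' _ : ({a : A | (a : E2) ∈ D} : Set A), (1 : ENNReal) from rfl, h2]
      refine tsum_congr fun a => ?_
      by_cases h : (a : E2) ∈ D
      · rw [Set.indicator_of_mem h, Set.indicator_of_mem (show a ∈ {a : A | (a : E2) ∈ D} from h)]
      · rw [Set.indicator_of_notMem h,
          Set.indicator_of_notMem (show a ∉ {a : A | (a : E2) ∈ D} from h)]
    rw [h1 D, h1 D']
    exact f.tsum_eq (fun _ => (1 : ENNReal))
  have h0 : (∑' a : A, (ZSpan.fundamentalDomain b).indicator (fun _ => (1 : ENNReal)) (z + a)) =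
      ∑' a : A, ({x | z + x ∈ ZSpan.fundamentalDomain b}).indicator (fun _ => (1 : ENNReal))
        (a : E2) := by
    refine tsum_congr fun a => ?_
    by_cases h : z + (a : E2) ∈ ZSpan.fundamentalDomain b
    · rw [Set.indicator_of_mem h, Set.indicator_of_mem (by exact h)]
    · rw [Set.indicator_of_notMem h, Set.indicator_of_notMem (by exact h)]
  rw [h0]
  refine key _ _ ?_
  have hs : ∀ x : E2, x ∈ ZSpan.fundamentalDomain b ↔ ZSpan.fract b x = x :=
    fun x => (ZSpan.fract_eq_self (b := b)).symm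
  have hfa : ∀ x y : E2, ZSpan.fract b (x + ZSpan.fract b y) = ZSpan.fract b (x + y) := by
    intro x y
    obtain ⟨v, hv, h⟩ := hfr y
    rw [h, show x + (v + y) = v + (x + y) by abel]
    exact ZSpan.fract_zSpan_add b _ hv
  refine
    { toFun := fun a => ⟨⟨ZSpan.fract b (a.1 : E2), (hA _).2 a.1.2⟩, ZSpan.fract_mem_fundamentalDomain b _⟩
      invFun := fun a => ⟨⟨ZSpan.fract b (z + (a.1 : E2)) - z, ?_⟩, ?_⟩
      left_inv := ?_
      right_inv := ?_ }
  · obtain ⟨v, hv, h⟩ := hfr (z + (a.1 : E2))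
    rw [h, show v + (z + (a.1 : E2)) - z = v + (a.1 : E2) by abel]
    exact (mem_add_iff hper hv _).2 a.1.2
  · change z + (ZSpan.fract b (z + (a.1 : E2)) - z) ∈ ZSpan.fundamentalDomain b
    rw [show z + (ZSpan.fract b (z + (a.1 : E2)) - z) = ZSpan.fract b (z + (a.1 : E2)) by abel]
    exact ZSpan.fract_mem_fundamentalDomain b _
  · rintro ⟨⟨a, ha⟩, ha'⟩
    apply Subtype.ext; apply Subtype.ext
    change ZSpan.fract b (z + ZSpan.fract b a) - z = a
    rw [hfa, (hs _).1 ha']
    abel
  · rintro ⟨⟨a, ha⟩, ha'⟩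
    apply Subtype.ext; apply Subtype.ext
    change ZSpan.fract b (ZSpan.fract b (z + a) - z) = a
    obtain ⟨v, hv, h⟩ := hfr (z + a)
    rw [h, show v + (z + a) - z = v + a by abel, ZSpan.fract_zSpan_add b _ hv]
    exact (hs _).1 ha'

/-- the average of `cnt A E` over a fundamental domain -/
theorem integral_cnt {A : Set E2} (hA : A.Countable) {b : Module.Basis (Fin 2) ℝ E2}
    (hper : ∀ i, ∀ a, b i + a ∈ A ↔ a ∈ A) {E : Set E2} (hE : MeasurableSet E) :
    ∫⁻ x in ZSpan.fundamentalDomain b, cnt A E x =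
      (∑' a : A, (ZSpan.fundamentalDomain b).indicator (fun _ => (1 : ENNReal)) (a : E2)) *
        volume E := by
  have : Countable A := hA.to_subtype
  have hD := ZSpan.fundamentalDomain_measurableSet b
  have hm : ∀ c : E2, Measurable fun x : E2 => E.indicator (fun _ => (1 : ENNReal)) (x - c) :=
    fun c => (measurable_const.indicator hE).comp (measurable_id.sub_const c)
  have hm' : ∀ c : E2, Measurable fun x : E2 =>
      (ZSpan.fundamentalDomain b).indicator (fun _ => (1 : ENNReal)) (x + c) :=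
    fun c => (measurable_const.indicator hD).comp (measurable_id.add_const c)
  unfold cnt
  rw [lintegral_tsum fun a : A => (hm (a : E2)).aemeasurable]
  have h1 : ∀ a : A, ∫⁻ x in ZSpan.fundamentalDomain b, E.indicator (fun _ => (1 : ENNReal)) (x - a)
      = ∫⁻ x in E, (ZSpan.fundamentalDomain b).indicator (fun _ => (1 : ENNReal)) (x + a) := by
    intro a
    rw [← lintegral_indicator hD, ← lintegral_indicator hE]
    rw [← lintegral_add_right_eq_self _ (a : E2)]
    refine lintegral_congr fun x => ?_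
    by_cases h : x + (a : E2) ∈ ZSpan.fundamentalDomain b
    · rw [Set.indicator_of_mem h, add_sub_cancel_right]
      by_cases h' : x ∈ E
      · rw [Set.indicator_of_mem h', Set.indicator_of_mem h', Set.indicator_of_mem h]
      · rw [Set.indicator_of_notMem h', Set.indicator_of_notMem h']
    · rw [Set.indicator_of_notMem h]
      by_cases h' : x ∈ E
      · rw [Set.indicator_of_mem h', Set.indicator_of_notMem h]
      · rw [Set.indicator_of_notMem h']
  rw [tsum_congr h1, ← lintegral_tsum fun a : A => (hm' (a : E2)).aemeasurable]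
  have h2 : ∀ x : E2, (∑' a : A, (ZSpan.fundamentalDomain b).indicator (fun _ => (1 : ENNReal))
      (x + a)) = ∑' a : A, (ZSpan.fundamentalDomain b).indicator (fun _ => (1 : ENNReal)) (a : E2) :=
    fun x => count_dom hper x
  simp_rw [h2]
  rw [setLIntegral_const]

end Vale.Agent.P043.R2
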