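import Vale.Agent.P043.R2.Red.Avg

/-!
# Averaging over lattice periodic sets in the plane: inequality implies equality
-/

namespace Vale.Agent.P043.R2

open MeasureTheory Vale.Agent.P043.Eu

theorem cnt_add {A E : Set E2} {v : E2} (hv : ∀ a, v + a ∈ A ↔ a ∈ A)
    (x : E2) : cnt A E (v + x) = cnt A E x := by
  unfold cnt
  let e : A ≃ A :=
    { toFun := fun a => ⟨v + a, (hv a).2 a.2⟩
      invFun := fun a => ⟨-v + a, (hv _).1 (by simp only [add_neg_cancel_left, Subtype.coe_prop])⟩
      left_inv := fun a => Subtype.ext (by simp only [neg_add_cancel_left])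
      right_inv := fun a => Subtype.ext (by simp only [add_neg_cancel_left]) }
  rw [← e.tsum_eq]
  refine tsum_congr fun a => ?_
  have h1 : v + x - (e a : E2) = x - a := by
    change v + x - (v + (a : E2)) = x - a
    abel
  rw [h1]

/-- `RO` in terms of filters -/
theorem RO.eventually {E : Set E2} (hE : RO E) (x : E2) :
    ∀ᶠ ε in nhdsWithin (0 : ℝ) (Set.Ioi 0), ∀ y : E2, (∀ i, x i ≤ y i ∧ y i < x i + ε) →
      (y ∈ E ↔ x ∈ E) := by
  obtain ⟨ε, hε, h⟩ := hE x
  filter_upwards [Ioo_mem_nhdsGT hε] with δ hδ y hy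
  exact h y fun i => ⟨(hy i).1, (hy i).2.trans (by linarith only [hδ.2])⟩

theorem RO.of_eventually {E : Set E2} (h : ∀ x, ∀ᶠ ε in nhdsWithin (0 : ℝ) (Set.Ioi 0),
    ∀ y : E2, (∀ i, x i ≤ y i ∧ y i < x i + ε) → (y ∈ E ↔ x ∈ E)) : RO E := by
  intro x
  obtain ⟨ε, hε, hε'⟩ := ((h x).and self_mem_nhdsWithin).exists
  exact ⟨ε, hε', hε⟩

/-- `cnt` is locally constant from the upper right -/
theorem cnt_RO {ρ : ℝ} (hρ : 0 < ρ) {A : Set E2} (hsep : Sepr ρ A) {E : Set E2}
    (hEb : Bornology.IsBounded E) (hE : RO E) (x : E2) :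
    ∃ ε > 0, ∀ y : E2, (∀ i, x i ≤ y i ∧ y i < x i + ε) → cnt A E y = cnt A E x := by
  obtain ⟨R, hR⟩ := hEb.subset_closedBall 0
  -- the relevant points of `A`
  set N : Set E2 := A ∩ Metric.closedBall x (|R| + 1) with hN
  have hNfin : N.Finite := hsep.finite hρ Metric.isBounded_closedBall
  have h1 : ∀ᶠ ε in nhdsWithin (0 : ℝ) (Set.Ioi 0), ∀ a ∈ N, ∀ y : E2,
      (∀ i, x i ≤ y i ∧ y i < x i + ε) → (y - a ∈ E ↔ x - a ∈ E) := by
    refine (Filter.eventually_all_finite hNfin).2 fun a _ => ?_
    filter_upwards [hE.eventually (x - a)] with ε h y hy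
    refine h (y - a) fun i => ?_
    have := hy i
    simp only [Pi.sub_apply]
    constructor <;> linarith
  obtain ⟨ε, ⟨hε, hε1⟩, hε0⟩ :=
    ((h1.and (Ioo_mem_nhdsGT (show (0:ℝ) < 1 by norm_num))).and self_mem_nhdsWithin).exists
  refine ⟨ε, hε0, fun y hy => ?_⟩
  have hxy : dist y x ≤ 1 := by
    rw [dist_pi_le_iff (by norm_num)]
    intro i
    have := hy i
    have h2 := hε1.2
    rw [Real.dist_eq, abs_le]
    constructor <;> linarith
  unfold cnt
  refine tsum_congr fun a => ?_
  by_cases ha : (a : E2) ∈ N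
  · have h3 := hε a ha y hy
    by_cases h4 : x - (a : E2) ∈ E
    · rw [Set.indicator_of_mem h4, Set.indicator_of_mem (h3.2 h4)]
    · rw [Set.indicator_of_notMem h4, Set.indicator_of_notMem (fun h => h4 (h3.1 h))]
  · have hfar : |R| + 1 < dist (a : E2) x := by
      by_contra h
      exact ha ⟨a.2, Metric.mem_closedBall.2 (not_lt.1 h)⟩
    have hno : ∀ z : E2, dist z x ≤ 1 → z - (a : E2) ∉ E := by
      intro z hz hzE
      have h5 := hR hzE
      rw [Metric.mem_closedBall, dist_zero_right] at h5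
      have h6 : dist (a : E2) x ≤ dist (a : E2) z + dist z x := dist_triangle _ _ _
      have h7 : dist (a : E2) z = ‖z - (a : E2)‖ := by rw [dist_comm, dist_eq_norm]
      have h8 := le_abs_self R
      linarith
    rw [Set.indicator_of_notMem (hno y hxy),
      Set.indicator_of_notMem (hno x (by rw [dist_self]; norm_num))]

/-- half-open boxes have positive measure, so they meet every set of full measure -/
theorem exists_mem_box {p : E2 → Prop} (h : ∀ᵐ x : E2, p x) (x : E2) {ε : ℝ} (hε : 0 < ε) :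
    ∃ y : E2, (∀ i, x i ≤ y i ∧ y i < x i + ε) ∧ p y := by
  by_contra hne
  push Not at hne
  have h1 : (Set.univ.pi fun i => Set.Ioo (x i) (x i + ε)) ⊆ {y | ¬ p y} := by
    intro y hy
    refine hne y fun i => ?_
    have := hy i (Set.mem_univ i)
    exact ⟨this.1.le, this.2⟩
  have h2 : volume (Set.univ.pi fun i => Set.Ioo (x i) (x i + ε)) = 0 :=
    measure_mono_null h1 (ae_iff.1 h)
  rw [Real.volume_pi_Ioo] at h2
  rw [Finset.prod_eq_zero_iff] at h2
  obtain ⟨i, _, hi⟩ := h2
  rw [ENNReal.ofReal_eq_zero] at hi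
  linarith

/-- For a separated lattice periodic set `A` and two bounded sets of the same area:
an inequality between the counting functions is an equality. -/
theorem cnt_eq_of_le {ρ : ℝ} (hρ : 0 < ρ) {A : Set E2} (hsep : Sepr ρ A)
    (hper : LatticePeriodic A) {E E' : Set E2}
    (hm : MeasurableSet E) (hm' : MeasurableSet E') (hb : Bornology.IsBounded E)
    (hb' : Bornology.IsBounded E') (hr : RO E) (hr' : RO E') (hv : volume E = volume E')
    (hle : ∀ x, cnt A E x ≤ cnt A E' x) (x : E2) : cnt A E x = cnt A E' x := by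
  obtain ⟨b, hperA⟩ := hper
  have hAc := hsep.countable hρ
  set D := ZSpan.fundamentalDomain b with hDdef
  have hD := ZSpan.isAddFundamentalDomain' b (volume : Measure E2)
  have hc : Countable (Submodule.span ℤ (Set.range b)) := inferInstance
  have hc' : Countable (Submodule.span ℤ (Set.range b)).toAddSubgroup := hc
  have hcount : (∑' a : A, D.indicator (fun _ => (1 : ENNReal)) (a : E2)) ≠ ⊤ := by
    have hfin : (A ∩ D).Finite := hsep.finite hρ (ZSpan.fundamentalDomain_isBounded b)
    have hfin' : {a : A | (a : E2) ∈ D}.Finite := by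
      refine Set.Finite.of_finite_image (f := Subtype.val) (hfin.subset ?_)
        Subtype.val_injective.injOn
      rintro _ ⟨a, ha, rfl⟩
      exact ⟨a.2, ha⟩
    have h2 : (∑' a : A, D.indicator (fun _ => (1 : ENNReal)) (a : E2)) =
        ∑ a ∈ hfin'.toFinset, D.indicator (fun _ => (1 : ENNReal)) (a : E2) := by
      refine tsum_eq_sum fun a ha => ?_
      refine Set.indicator_of_notMem (fun h => ha ?_) _
      rw [Set.Finite.mem_toFinset]
      exact h
    rw [h2]
    refine ENNReal.sum_ne_top.2 fun a _ => ?_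
    by_cases h : (a : E2) ∈ D
    · rw [Set.indicator_of_mem h]; exact ENNReal.one_ne_top
    · rw [Set.indicator_of_notMem h]; exact ENNReal.zero_ne_top
  have hfin : ∫⁻ x in D, cnt A E x ≠ ⊤ := by
    rw [integral_cnt hAc hperA hm]
    exact ENNReal.mul_ne_top hcount hb.measure_lt_top.ne
  have hae1 : ∀ᵐ x ∂(volume.restrict D), cnt A E x = cnt A E' x := by
    have h2 : cnt A E =ᵐ[volume.restrict D] cnt A E' := by
      refine ae_eq_of_ae_le_of_lintegral_le (Filter.Eventually.of_forall hle) hfin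
        (cnt_measurable hAc hm').aemeasurable ?_
      rw [integral_cnt hAc hperA hm, integral_cnt hAc hperA hm', hv]
    exact h2
  have hinv : ∀ E : Set E2, ∀ y ∈ Submodule.span ℤ (Set.range b), ∀ x,
      cnt A E (y + x) = cnt A E x := fun E y hy x => cnt_add (mem_add_iff hperA hy) x
  have hae : ∀ᵐ x : E2, cnt A E x = cnt A E' x := by
    have h2 : volume {x : E2 | ¬ cnt A E x = cnt A E' x} = 0 := by
      refine hD.measure_zero_of_invariant _ (fun w => ?_) ?_
      · ext x
        rw [Set.mem_vadd_set]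
        constructor
        · rintro ⟨y, hy, rfl⟩
          change ¬ cnt A E ((w : E2) + y) = cnt A E' ((w : E2) + y)
          rw [hinv _ _ w.2, hinv _ _ w.2]
          exact hy
        · intro hx
          refine ⟨(-w : (Submodule.span ℤ (Set.range b)).toAddSubgroup) +ᵥ x, ?_, ?_⟩
          · change ¬ cnt A E (((-w : (Submodule.span ℤ (Set.range b)).toAddSubgroup) : E2) + x) =
              cnt A E' (((-w : (Submodule.span ℤ (Set.range b)).toAddSubgroup) : E2) + x)
            rw [hinv _ _ (-w).2, hinv _ _ (-w).2]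
            exact hx
          · simp
      · have h3 := hae1
        rw [ae_iff, Measure.restrict_apply' (ZSpan.fundamentalDomain_measurableSet b)] at h3
        exact h3
    rw [ae_iff]
    exact h2
  obtain ⟨ε, hε, h1⟩ := cnt_RO hρ hsep hb hr x
  obtain ⟨ε', hε', h1'⟩ := cnt_RO hρ hsep hb' hr' x
  obtain ⟨y, hy, hye⟩ := exists_mem_box hae x (lt_min hε hε')
  rw [h1 y fun i => ⟨(hy i).1, (hy i).2.trans_le (by gcongr; exact min_le_left _ _)⟩,
    h1' y fun i => ⟨(hy i).1, (hy i).2.trans_le (by gcongr; exact min_le_right _ _)⟩] at hye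
  exact hye

end Vale.Agent.P043.R2
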