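import Vale.Agent.P043.R2.Red.Avg2

/-!
# Fattening of tiles of `ℤ × ℝ` to sets in the plane
-/

namespace Vale.Agent.P043.R2

open MeasureTheory Vale.Agent.P043.Eu

/-! ### sets which are locally constant from the upper right -/

theorem RO.inter {E F : Set E2} (hE : RO E) (hF : RO F) : RO (E ∩ F) := by
  refine RO.of_eventually fun x => ?_
  filter_upwards [hE.eventually x, hF.eventually x] with ε h h' y hy
  exact and_congr (h y hy) (h' y hy)

theorem RO.union {E F : Set E2} (hE : RO E) (hF : RO F) : RO (E ∪ F) := by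
  refine RO.of_eventually fun x => ?_
  filter_upwards [hE.eventually x, hF.eventually x] with ε h h' y hy
  exact or_congr (h y hy) (h' y hy)

theorem RO.compl {E : Set E2} (hE : RO E) : RO Eᶜ := by
  refine RO.of_eventually fun x => ?_
  filter_upwards [hE.eventually x] with ε h y hy
  exact not_congr (h y hy)

theorem RO.shift {E : Set E2} (hE : RO E) (w : E2) : RO {x | x - w ∈ E} := by
  intro x
  obtain ⟨ε, hε, h⟩ := hE (x - w)
  refine ⟨ε, hε, fun y hy => h (y - w) fun i => ?_⟩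
  have := hy i
  simp only [Pi.sub_apply]
  constructor <;> linarith

theorem RO.empty : RO (∅ : Set E2) := fun _ => ⟨1, one_pos, fun _ _ => Iff.rfl⟩

theorem RO.biUnion {ι : Type*} (s : Finset ι) {E : ι → Set E2} (h : ∀ i ∈ s, RO (E i)) :
    RO (⋃ i ∈ s, E i) := by
  classical
  induction s using Finset.induction_on with
  | empty => simpa using RO.empty
  | insert a s _ ih =>
    rw [Finset.set_biUnion_insert]
    exact (h a (Finset.mem_insert_self a s)).union
      (ih fun i hi => h i (Finset.mem_insert_of_mem hi))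

/-- half-open box -/
def box (a b c d : ℝ) : Set E2 := {x | (a ≤ x 0 ∧ x 0 < b) ∧ c ≤ x 1 ∧ x 1 < d}

theorem RO.ge (i : Fin 2) (a : ℝ) : RO {x : E2 | a ≤ x i} := by
  intro x
  by_cases h : a ≤ x i
  · exact ⟨1, one_pos, fun y hy => iff_of_true (h.trans (hy i).1) h⟩
  · refine ⟨a - x i, by linarith [not_le.1 h], fun y hy => iff_of_false (fun h' => ?_) h⟩
    have h2 := (hy i).2
    have h3 : a ≤ y i := h'
    linarith

theorem RO.lt (i : Fin 2) (a : ℝ) : RO {x : E2 | x i < a} := by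
  have h := (RO.ge i a).compl
  have e : {x : E2 | x i < a} = {x : E2 | a ≤ x i}ᶜ := by
    ext x
    simp
  rw [e]
  exact h

theorem box_RO (a b c d : ℝ) : RO (box a b c d) :=
  ((RO.ge 0 a).inter (RO.lt 0 b)).inter ((RO.ge 1 c).inter (RO.lt 1 d))

theorem box_measurable (a b c d : ℝ) : MeasurableSet (box a b c d) := by
  have h0 : Measurable fun x : E2 => x 0 := measurable_pi_apply 0
  have h1 : Measurable fun x : E2 => x 1 := measurable_pi_apply 1
  exact ((measurableSet_le measurable_const h0).inter (measurableSet_lt h0 measurable_const)).inter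
    ((measurableSet_le measurable_const h1).inter (measurableSet_lt h1 measurable_const))

theorem box_bounded (a b c d : ℝ) : Bornology.IsBounded (box a b c d) := by
  refine (Metric.isBounded_Icc (![a, c] : E2) ![b, d]).subset ?_
  rintro x ⟨⟨h1, h2⟩, h3, h4⟩
  constructor
  · intro i
    fin_cases i
    · exact h1
    · exact h3
  · intro i
    fin_cases i
    · exact h2.le
    · exact h4.le

/-- a nonempty `RO` set has positive measure -/
theorem RO.pos {E : Set E2} (hE : RO E) {x : E2} (hx : x ∈ E) : 0 < volume E := by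
  rw [pos_iff_ne_zero]
  intro h0
  obtain ⟨ε, hε, h⟩ := hE x
  have h1 : ∀ᵐ y : E2, y ∉ E := by
    rw [ae_iff]
    simpa using h0
  obtain ⟨y, hy, hyE⟩ := exists_mem_box h1 x hε
  exact hyE ((h y hy).2 hx)

/-! ### the fattened tile -/

/-- `[0,1) × T` -/
def K (T : Set H) : Set E2 := {x | ((⌊x 0⌋, x 1) : H) ∈ T}

/-- the part of `K T` over the middle strips -/
def KQ (T : Set H) : Set E2 :=
  {x | ((⌊x 0⌋, x 1) : H) ∈ T ∧ 3 / 8 ≤ Int.fract (x 0) ∧ Int.fract (x 0) < 5 / 8}

/-- vertical vector -/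
def wv (v : ℝ) : E2 := ![0, v]

/-- the plane tile: the middle strips are moved upwards by `v` -/
def Om (v : ℝ) (T : Set H) : Set E2 := {x | (x ∈ K T ∧ x ∉ KQ T) ∨ x - wv v ∈ KQ T}

theorem K_eq (s : Finset (ℤ × ℝ × ℝ)) :
    K {g | ∃ p ∈ s, g.1 = p.1 ∧ p.2.1 ≤ g.2 ∧ g.2 < p.2.2} =
      ⋃ p ∈ s, box p.1 (p.1 + 1) p.2.1 p.2.2 := by
  ext x
  simp only [K, Set.mem_ofPred_eq, Set.mem_iUnion, exists_prop, box]
  refine exists_congr fun p => and_congr_right fun _ => and_congr_left fun _ => ?_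
  exact Int.floor_eq_iff

theorem KQ_eq (s : Finset (ℤ × ℝ × ℝ)) :
    KQ {g | ∃ p ∈ s, g.1 = p.1 ∧ p.2.1 ≤ g.2 ∧ g.2 < p.2.2} =
      ⋃ p ∈ s, box (p.1 + 3 / 8) (p.1 + 5 / 8) p.2.1 p.2.2 := by
  ext x
  simp only [KQ, Set.mem_ofPred_eq, Set.mem_iUnion, exists_prop, box]
  constructor
  · rintro ⟨⟨p, hp, h1, h2⟩, h3, h4⟩
    refine ⟨p, hp, ?_, h2⟩
    have h5 : (⌊x 0⌋ : ℝ) = p.1 := by exact_mod_cast h1
    have h6 := Int.floor_add_fract (x 0)
    constructor <;> linarith
  · rintro ⟨p, hp, ⟨h3, h4⟩, h2⟩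
    have h1 : ⌊x 0⌋ = p.1 := by
      rw [Int.floor_eq_iff]
      constructor <;> linarith
    have h5 : (⌊x 0⌋ : ℝ) = p.1 := by exact_mod_cast h1
    have h6 := Int.floor_add_fract (x 0)
    refine ⟨⟨p, hp, h1, h2⟩, ?_, ?_⟩ <;> linarith

theorem K_RO {T : Set H} (hT : IsT T) : RO (K T) := by
  obtain ⟨s, rfl⟩ := hT
  rw [K_eq]
  exact RO.biUnion s fun p _ => box_RO _ _ _ _

theorem KQ_RO {T : Set H} (hT : IsT T) : RO (KQ T) := by
  obtain ⟨s, rfl⟩ := hT
  rw [KQ_eq]
  exact RO.biUnion s fun p _ => box_RO _ _ _ _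

theorem K_measurable {T : Set H} (hT : IsT T) : MeasurableSet (K T) := by
  obtain ⟨s, rfl⟩ := hT
  rw [K_eq]
  exact Finset.measurableSet_biUnion s fun p _ => box_measurable _ _ _ _

theorem KQ_measurable {T : Set H} (hT : IsT T) : MeasurableSet (KQ T) := by
  obtain ⟨s, rfl⟩ := hT
  rw [KQ_eq]
  exact Finset.measurableSet_biUnion s fun p _ => box_measurable _ _ _ _

theorem K_bounded {T : Set H} (hT : IsT T) : Bornology.IsBounded (K T) := by
  obtain ⟨s, rfl⟩ := hT
  rw [K_eq]
  exact (Bornology.isBounded_biUnion_finset s).2 fun p _ => box_bounded _ _ _ _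

theorem KQ_subset (T : Set H) : KQ T ⊆ K T := fun _ h => h.1

theorem KQ_bounded {T : Set H} (hT : IsT T) : Bornology.IsBounded (KQ T) :=
  (K_bounded hT).subset (KQ_subset T)

theorem shift_bounded {E : Set E2} (hE : Bornology.IsBounded E) (w : E2) :
    Bornology.IsBounded {x | x - w ∈ E} := by
  obtain ⟨R, hR⟩ := hE.subset_closedBall 0
  refine (Metric.isBounded_closedBall (x := w) (r := R)).subset fun x hx => ?_
  have := hR hx
  rw [Metric.mem_closedBall, dist_zero_right] at this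
  rw [Metric.mem_closedBall, dist_eq_norm]
  exact this

theorem shift_measurable {E : Set E2} (hE : MeasurableSet E) (w : E2) :
    MeasurableSet {x | x - w ∈ E} := hE.preimage (measurable_id.sub_const w)

theorem shift_volume (E : Set E2) (w : E2) : volume {x | x - w ∈ E} = volume E := by
  have : {x | x - w ∈ E} = (fun x => x + (-w)) ⁻¹' E := by
    ext x
    simp [sub_eq_add_neg]
  rw [this, measure_preimage_add_right]

theorem Om_RO {T : Set H} (hT : IsT T) (v : ℝ) : RO (Om v T) :=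
  ((K_RO hT).inter (KQ_RO hT).compl).union ((KQ_RO hT).shift (wv v))

theorem Om_measurable {T : Set H} (hT : IsT T) (v : ℝ) : MeasurableSet (Om v T) :=
  ((K_measurable hT).inter (KQ_measurable hT).compl).union
    (shift_measurable (KQ_measurable hT) (wv v))

theorem Om_bounded {T : Set H} (hT : IsT T) (v : ℝ) : Bornology.IsBounded (Om v T) :=
  ((K_bounded hT).subset fun _ h => h.1).union (shift_bounded (KQ_bounded hT) (wv v))

/-- in `Om`, strips are separate -/
theorem mem_Om_iff (v : ℝ) (T : Set H) (x : E2) : x ∈ Om v T ↔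
    (¬ (3 / 8 ≤ Int.fract (x 0) ∧ Int.fract (x 0) < 5 / 8) ∧ ((⌊x 0⌋, x 1) : H) ∈ T) ∨
    ((3 / 8 ≤ Int.fract (x 0) ∧ Int.fract (x 0) < 5 / 8) ∧ ((⌊x 0⌋, x 1 - v) : H) ∈ T) := by
  have h0 : (x - wv v) 0 = x 0 := by simp [wv]
  have h1 : (x - wv v) 1 = x 1 - v := by simp [wv]
  unfold Om K KQ
  simp only [Set.mem_ofPred_eq, h0, h1]
  tauto

end Vale.Agent.P043.R2
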