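import Vale.Agent.P043.MathlibUsed
import Vale.Agent.P043.Eu.Defs

/-!
# Finite systems of tiles in `ℤ × ℝ`: definitions
-/

namespace Vale.Agent.P043.R2

open MeasureTheory

/-- integer horizontal position, real vertical position -/
abbrev H := ℤ × ℝ

/-- `A ⊕ T = ℤ × ℝ`: every point `g` is `a + t` for exactly one `a ∈ A` (with `t ∈ T`) -/
def Sol (A T : Set H) : Prop := ∀ g : H, ∃! a : H, a ∈ A ∧ g - a ∈ T

/-- a finite union of half-open vertical intervals -/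
def IsT (T : Set H) : Prop :=
  ∃ s : Finset (ℤ × ℝ × ℝ), T = {g | ∃ p ∈ s, g.1 = p.1 ∧ p.2.1 ≤ g.2 ∧ g.2 < p.2.2}

/-- the total length of `T` -/
noncomputable def len (T : Set H) : ENNReal := ∑' n : ℤ, volume {y : ℝ | ((n, y) : H) ∈ T}

/-- invariance under two linearly independent vectors -/
def Per (A : Set H) : Prop :=
  ∃ v w : H, (v.1 : ℝ) * w.2 - (w.1 : ℝ) * v.2 ≠ 0 ∧ (∀ a, v + a ∈ A ↔ a ∈ A) ∧
    ∀ a, w + a ∈ A ↔ a ∈ A

end Vale.Agent.P043.R2
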