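import Vale.Agent.P043.R2.Red.Rigid

/-!
# Merging two tiles of `ℤ × ℝ`
-/

namespace Vale.Agent.P043.R2

open MeasureTheory Vale.Agent.P043.Eu

/-- the combined tile: `T2` in the residue class `1` modulo `4`, `T1` in the other three classes -/
def comb (T1 T2 : Set H) : Set H :=
  {g | (g.1 % 4 = 1 ∧ ((g.1 / 4, g.2) : H) ∈ T2) ∨ (g.1 % 4 ≠ 1 ∧ ((g.1 / 4, g.2) : H) ∈ T1)}

/-- one residue class of the dilated tile -/
def cl (r : ℤ) (T : Set H) : Set H := {g | g.1 % 4 = r ∧ ((g.1 / 4, g.2) : H) ∈ T}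

/-- dilation by `4` -/
def dil (g : H) : H := (4 * g.1, g.2)

theorem isT_union {T T' : Set H} (h : IsT T) (h' : IsT T') : IsT (T ∪ T') := by
  classical
  obtain ⟨s, rfl⟩ := h
  obtain ⟨s', rfl⟩ := h'
  refine ⟨s ∪ s', ?_⟩
  ext g
  simp only [Set.mem_union, Set.mem_ofPred_eq, Finset.mem_union]
  constructor
  · rintro (⟨p, hp, h⟩ | ⟨p, hp, h⟩)
    · exact ⟨p, Or.inl hp, h⟩
    · exact ⟨p, Or.inr hp, h⟩
  · rintro ⟨p, hp | hp, h⟩
    · exact Or.inl ⟨p, hp, h⟩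
    · exact Or.inr ⟨p, hp, h⟩

theorem isT_cl {T : Set H} (h : IsT T) (r : ℤ) (hr : 0 ≤ r) (hr4 : r < 4) : IsT (cl r T) := by
  classical
  obtain ⟨s, rfl⟩ := h
  refine ⟨s.image fun p => (4 * p.1 + r, p.2), ?_⟩
  ext g
  simp only [cl, Set.mem_ofPred_eq, Finset.mem_image]
  constructor
  · rintro ⟨h1, p, hp, h2, h3⟩
    refine ⟨_, ⟨p, hp, rfl⟩, ?_, h3⟩
    change g.1 = 4 * p.1 + r
    omega
  · rintro ⟨_, ⟨p, hp, rfl⟩, h2, h3⟩
    have h2' : g.1 = 4 * p.1 + r := h2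
    refine ⟨by omega, p, hp, ?_, h3⟩
    omega

theorem comb_eq (T1 T2 : Set H) :
    comb T1 T2 = cl 0 T1 ∪ (cl 1 T2 ∪ (cl 2 T1 ∪ cl 3 T1)) := by
  ext g
  simp only [comb, cl, Set.mem_ofPred_eq, Set.mem_union]
  have h : g.1 % 4 = 0 ∨ g.1 % 4 = 1 ∨ g.1 % 4 = 2 ∨ g.1 % 4 = 3 := by omega
  rcases h with h | h | h | h <;> simp [h]

theorem isT_comb {T1 T2 : Set H} (h1 : IsT T1) (h2 : IsT T2) : IsT (comb T1 T2) := by
  rw [comb_eq]
  exact isT_union (isT_cl h1 0 (by norm_num) (by norm_num))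
    (isT_union (isT_cl h2 1 (by norm_num) (by norm_num))
      (isT_union (isT_cl h1 2 (by norm_num) (by norm_num))
        (isT_cl h1 3 (by norm_num) (by norm_num))))

/-! ### total length -/

/-- `len` as a sum over residues modulo `4` -/
theorem tsum_int_four (f : ℤ → ENNReal) :
    ∑' n : ℤ, f n = ∑ r : Fin 4, ∑' m : ℤ, f (4 * m + (r : ℕ)) := by
  let e : ℤ × Fin 4 ≃ ℤ :=
    { toFun := fun p => 4 * p.1 + (p.2 : ℕ)
      invFun := fun n => (n / 4, ⟨(n % 4).toNat, by omega⟩)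
      left_inv := by
        rintro ⟨m, r⟩
        have hr := r.isLt
        refine Prod.ext ?_ ?_
        · change (4 * m + (r : ℕ)) / 4 = m
          omega
        · apply Fin.ext
          change ((4 * m + ((r : ℕ) : ℤ)) % 4).toNat = r
          omega
      right_inv := by
        intro n
        change 4 * (n / 4) + (((n % 4).toNat : ℕ) : ℤ) = n
        omega }
  rw [← e.tsum_eq, ENNReal.tsum_prod']
  rw [ENNReal.tsum_comm]
  rw [tsum_fintype]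
  rfl

theorem len_cl_eq (T : Set H) (r : Fin 4) :
    ∑' m : ℤ, volume {y : ℝ | ((4 * m + (r : ℕ), y) : H) ∈ cl (r : ℕ) T} = len T := by
  unfold len
  refine tsum_congr fun m => ?_
  congr 1
  ext y
  have hr := r.isLt
  simp only [cl, Set.mem_ofPred_eq]
  have h1 : (4 * m + ((r : ℕ) : ℤ)) % 4 = (r : ℕ) := by omega
  have h2 : (4 * m + ((r : ℕ) : ℤ)) / 4 = m := by omega
  rw [h1, h2]
  simp

theorem len_comb (T1 T2 : Set H) : len (comb T1 T2) = 3 * len T1 + len T2 := by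
  have h0 : len (comb T1 T2) =
      ∑ r : Fin 4, ∑' m : ℤ, volume {y : ℝ | ((4 * m + (r : ℕ), y) : H) ∈ comb T1 T2} := by
    unfold len
    exact tsum_int_four _
  rw [h0, Fin.sum_univ_four]
  have hc : ∀ (r : Fin 4) (T : Set H), (∀ m : ℤ, ∀ y : ℝ,
      ((4 * m + (r : ℕ), y) : H) ∈ comb T1 T2 ↔ ((4 * m + (r : ℕ), y) : H) ∈ cl (r : ℕ) T) →
      ∑' m : ℤ, volume {y : ℝ | ((4 * m + (r : ℕ), y) : H) ∈ comb T1 T2} = len T := by
    intro r T h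
    rw [← len_cl_eq T r]
    refine tsum_congr fun m => ?_
    congr 1
    ext y
    exact h m y
  rw [hc 0 T1, hc 1 T2, hc 2 T1, hc 3 T1]
  · ring
  all_goals
    intro m y
    simp only [comb, cl, Set.mem_ofPred_eq]
    have h1 : ∀ r : ℤ, 0 ≤ r → r < 4 → (4 * m + r) % 4 = r := fun r _ _ => by omega
    simp [h1]

/-! ### solutions of the combined tile -/

theorem sol_comb {A T1 T2 : Set H} (h1 : Sol A T1) (h2 : Sol A T2) :
    Sol (dil '' A) (comb T1 T2) := by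
  intro g
  have key : ∀ a : H, g - dil a ∈ comb T1 T2 ↔
      (g.1 % 4 = 1 ∧ ((g.1 / 4, g.2) : H) - a ∈ T2) ∨
        (g.1 % 4 ≠ 1 ∧ ((g.1 / 4, g.2) : H) - a ∈ T1) := by
    intro a
    have e1 : (g - dil a).1 % 4 = g.1 % 4 := by
      change (g.1 - 4 * a.1) % 4 = g.1 % 4
      omega
    have e2 : (((g - dil a).1 / 4, (g - dil a).2) : H) = ((g.1 / 4, g.2) : H) - a := by
      refine Prod.ext ?_ rfl
      change (g.1 - 4 * a.1) / 4 = g.1 / 4 - a.1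
      omega
    simp only [comb, Set.mem_ofPred_eq]
    rw [e1, e2]
  by_cases hg : g.1 % 4 = 1
  · obtain ⟨a, ⟨ha, hat⟩, hu⟩ := h2 (g.1 / 4, g.2)
    refine ⟨dil a, ⟨⟨a, ha, rfl⟩, (key a).2 (Or.inl ⟨hg, hat⟩)⟩, ?_⟩
    rintro _ ⟨⟨b, hb, rfl⟩, hbt⟩
    rcases (key b).1 hbt with h | h
    · rw [hu b ⟨hb, h.2⟩]
    · exact absurd hg h.1
  · obtain ⟨a, ⟨ha, hat⟩, hu⟩ := h1 (g.1 / 4, g.2)
    refine ⟨dil a, ⟨⟨a, ha, rfl⟩, (key a).2 (Or.inr ⟨hg, hat⟩)⟩, ?_⟩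
    rintro _ ⟨⟨b, hb, rfl⟩, hbt⟩
    rcases (key b).1 hbt with h | h
    · exact absurd h.1 hg
    · rw [hu b ⟨hb, h.2⟩]

/-- pulling back a solution of `comb T T` -/
def pull (A : Set H) : Set H := {g | ∃ r : ℤ, 0 ≤ r ∧ r < 4 ∧ ((4 * g.1 - r, g.2) : H) ∈ A}

theorem sol_pull {A T : Set H} (h : Sol A (comb T T)) : Sol (pull A) T := by
  have hc : ∀ g : H, g ∈ comb T T ↔ ((g.1 / 4, g.2) : H) ∈ T := by
    intro g
    simp only [comb, Set.mem_ofPred_eq]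
    by_cases h : g.1 % 4 = 1 <;> simp [h]
  intro g
  have key : ∀ (c : H) (r : ℤ), 0 ≤ r → r < 4 →
      (dil g - ((4 * c.1 - r, c.2) : H) ∈ comb T T ↔ g - c ∈ T) := by
    intro c r h0 h4
    rw [hc]
    have e : (((dil g - ((4 * c.1 - r, c.2) : H)).1 / 4,
        (dil g - ((4 * c.1 - r, c.2) : H)).2) : H) = g - c := by
      refine Prod.ext ?_ rfl
      change (4 * g.1 - (4 * c.1 - r)) / 4 = g.1 - c.1
      omega
    rw [e]
  obtain ⟨a, ⟨ha, hat⟩, hu⟩ := h (dil g)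
  have hr : ∃ (c : H) (r : ℤ), 0 ≤ r ∧ r < 4 ∧ a = ((4 * c.1 - r, c.2) : H) := by
    refine ⟨(-((-a.1) / 4), a.2), (-a.1) % 4, by omega, by omega, Prod.ext ?_ rfl⟩
    change a.1 = 4 * (-((-a.1) / 4)) - (-a.1) % 4
    omega
  obtain ⟨c, r, h0, h4, rfl⟩ := hr
  refine ⟨c, ⟨⟨r, h0, h4, ha⟩, (key c r h0 h4).1 hat⟩, ?_⟩
  rintro c' ⟨⟨r', h0', h4', ha'⟩, hg'⟩
  have h5 := hu _ ⟨ha', (key c' r' h0' h4').2 hg'⟩
  have h6 : 4 * c'.1 - r' = 4 * c.1 - r := (Prod.mk.inj h5).1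
  have h7 : c'.2 = c.2 := (Prod.mk.inj h5).2
  exact Prod.ext (by omega) h7

theorem per_pull {A : Set H} (h : Per A) : Per (pull A) := by
  obtain ⟨v, w, hdet, hv, hw⟩ := h
  have key : ∀ v : H, (∀ a, v + a ∈ A ↔ a ∈ A) → ∀ a, ((v.1, 4 * v.2) : H) + a ∈ pull A ↔
      a ∈ pull A := by
    intro v hv a
    have h4 : ∀ a : H, (((4 * v.1, 4 * v.2) : H) + a ∈ A ↔ a ∈ A) := by
      intro a
      have e : ((4 * v.1, 4 * v.2) : H) + a = v + (v + (v + (v + a))) := by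
        refine Prod.ext ?_ ?_
        · change 4 * v.1 + a.1 = v.1 + (v.1 + (v.1 + (v.1 + a.1)))
          ring
        · change 4 * v.2 + a.2 = v.2 + (v.2 + (v.2 + (v.2 + a.2)))
          ring
      rw [e, hv, hv, hv, hv]
    refine exists_congr fun r => and_congr_right fun _ => and_congr_right fun _ => ?_
    rw [← h4 (4 * a.1 - r, a.2)]
    have e : ((4 * (((v.1, 4 * v.2) : H) + a).1 - r, (((v.1, 4 * v.2) : H) + a).2) : H) =
        ((4 * v.1, 4 * v.2) : H) + (4 * a.1 - r, a.2) := by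
      refine Prod.ext ?_ rfl
      change 4 * (v.1 + a.1) - r = 4 * v.1 + (4 * a.1 - r)
      ring
    rw [e]
  refine ⟨(v.1, 4 * v.2), (w.1, 4 * w.2), ?_, key v hv, key w hw⟩
  change (v.1 : ℝ) * (4 * w.2) - (w.1 : ℝ) * (4 * v.2) ≠ 0
  intro h
  apply hdet
  linarith

end Vale.Agent.P043.R2
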