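import Vale.Agent.P043.R2.Red.Box

/-!
# From `ℤ × ℝ` to the plane: existence and rigidity
-/

namespace Vale.Agent.P043.R2

open MeasureTheory Vale.Agent.P043.Eu

/-- point of the plane -/
noncomputable def toR (g : H) : E2 := ![(g.1 : ℝ), g.2]

theorem toR_zero (g : H) : toR g 0 = g.1 := rfl
theorem toR_one (g : H) : toR g 1 = g.2 := rfl

theorem toR_inj {g h : H} (e : toR g = toR h) : g = h := by
  have h0 := congrFun e 0
  have h1 := congrFun e 1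
  rw [toR_zero, toR_zero] at h0
  exact Prod.ext (by exact_mod_cast h0) h1

/-! ### existence -/

theorem exists_tiling {T A : Set H} (h : Sol A T) (v : ℝ) (x : E2) :
    ∃! a, a ∈ toR '' A ∧ x - a ∈ Om v T := by
  have key : ∀ a : H, x - toR a ∈ Om v T ↔
      (¬ (3 / 8 ≤ Int.fract (x 0) ∧ Int.fract (x 0) < 5 / 8) ∧ ((⌊x 0⌋, x 1) : H) - a ∈ T) ∨
      ((3 / 8 ≤ Int.fract (x 0) ∧ Int.fract (x 0) < 5 / 8) ∧
        ((⌊x 0⌋, x 1 - v) : H) - a ∈ T) := by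
    intro a
    rw [mem_Om_iff]
    have h0 : (x - toR a) 0 = x 0 - a.1 := by rw [Pi.sub_apply, toR_zero]
    have h1 : (x - toR a) 1 = x 1 - a.2 := by rw [Pi.sub_apply, toR_one]
    rw [h0, h1, Int.fract_sub_intCast, Int.floor_sub_intCast]
    have e1 : ((⌊x 0⌋, x 1) : H) - a = (⌊x 0⌋ - a.1, x 1 - a.2) := rfl
    have e2 : ((⌊x 0⌋, x 1 - v) : H) - a = (⌊x 0⌋ - a.1, x 1 - a.2 - v) := by
      refine Prod.ext rfl ?_
      change x 1 - v - a.2 = x 1 - a.2 - v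
      ring
    rw [e1, e2]
  by_cases hQ : 3 / 8 ≤ Int.fract (x 0) ∧ Int.fract (x 0) < 5 / 8
  · obtain ⟨a, ⟨ha, hat⟩, hu⟩ := h (⌊x 0⌋, x 1 - v)
    refine ⟨toR a, ⟨⟨a, ha, rfl⟩, (key a).2 (Or.inr ⟨hQ, hat⟩)⟩, ?_⟩
    rintro _ ⟨⟨b, hb, rfl⟩, hbt⟩
    rcases (key b).1 hbt with h1 | h1
    · exact absurd hQ h1.1
    · rw [hu b ⟨hb, h1.2⟩]
  · obtain ⟨a, ⟨ha, hat⟩, hu⟩ := h (⌊x 0⌋, x 1)
    refine ⟨toR a, ⟨⟨a, ha, rfl⟩, (key a).2 (Or.inl ⟨hQ, hat⟩)⟩, ?_⟩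
    rintro _ ⟨⟨b, hb, rfl⟩, hbt⟩
    rcases (key b).1 hbt with h1 | h1
    · rw [hu b ⟨hb, h1.2⟩]
    · exact absurd h1.1 hQ

theorem tilesAE_of_sol {T A : Set H} (h : Sol A T) (v : ℝ) : TilesAE (Om v T) (toR '' A) := by
  constructor
  · have : (⋃ a ∈ toR '' A, {x : E2 | x - a ∈ Om v T})ᶜ = ∅ := by
      rw [Set.compl_empty_iff, Set.eq_univ_iff_forall]
      intro x
      obtain ⟨a, ⟨ha, hx⟩, _⟩ := exists_tiling h v x
      exact Set.mem_iUnion₂.2 ⟨a, ha, hx⟩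
    rw [this]
    exact measure_empty
  · intro a ha b hb hab
    have : {x : E2 | x - a ∈ Om v T} ∩ {x | x - b ∈ Om v T} = ∅ := by
      rw [Set.eq_empty_iff_forall_notMem]
      rintro x ⟨hxa, hxb⟩
      exact hab ((exists_tiling h v x).unique ⟨ha, hxa⟩ ⟨hb, hxb⟩)
    rw [this]
    exact measure_empty

/-! ### exact tilings -/

/-- the thickness of a tile -/
def Thick (ε : ℝ) (T : Set H) : Prop :=
  ∀ g ∈ T, ∃ c d : ℝ, c ≤ g.2 ∧ g.2 < d ∧ ε ≤ d - c ∧ ∀ y, c ≤ y → y < d → ((g.1, y) : H) ∈ T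

theorem IsT.thick {T : Set H} (hT : IsT T) : ∃ ε > 0, Thick ε T := by
  classical
  obtain ⟨s, rfl⟩ := hT
  have key : ∃ ε > 0, ∀ p ∈ s, p.2.1 < p.2.2 → ε ≤ p.2.2 - p.2.1 := by
    induction s using Finset.induction_on with
    | empty => exact ⟨1, one_pos, by simp⟩
    | insert a s _ ih =>
      obtain ⟨ε, hε, h⟩ := ih
      by_cases ha : a.2.1 < a.2.2
      · refine ⟨min ε (a.2.2 - a.2.1), lt_min hε (by linarith), ?_⟩
        intro p hp hpp
        rw [Finset.mem_insert] at hp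
        rcases hp with rfl | hp
        · exact min_le_right _ _
        · exact (min_le_left _ _).trans (h p hp hpp)
      · refine ⟨ε, hε, ?_⟩
        intro p hp hpp
        rw [Finset.mem_insert] at hp
        rcases hp with rfl | hp
        · exact absurd hpp ha
        · exact h p hp hpp
  obtain ⟨ε, hε, h⟩ := key
  refine ⟨ε, hε, ?_⟩
  rintro g ⟨p, hp, h1, h2, h3⟩
  exact ⟨p.2.1, p.2.2, h2, h3, h p hp (h2.trans_lt h3), fun y hy hy' => ⟨p, hp, h1, hy, hy'⟩⟩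

theorem disj_of_tilesAE {E A : Set E2} (hE : RO E) (h : TilesAE E A) {a b : E2} (ha : a ∈ A)
    (hb : b ∈ A) {x : E2} (hxa : x - a ∈ E) (hxb : x - b ∈ E) : a = b := by
  by_contra hne
  have h1 := h.2 a ha b hb hne
  have h2 : RO ({x : E2 | x - a ∈ E} ∩ {x | x - b ∈ E}) := (hE.shift a).inter (hE.shift b)
  exact (h2.pos (x := x) ⟨hxa, hxb⟩).ne' h1

theorem cover_of_tilesAE {E A : Set E2} {ρ : ℝ} (hρ : 0 < ρ) (hsep : Sepr ρ A)
    (hb : Bornology.IsBounded E) (hE : RO E) (h : TilesAE E A) (x : E2) :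
    ∃ a ∈ A, x - a ∈ E := by
  obtain ⟨ε, hε, h1⟩ := cnt_RO hρ hsep hb hE x
  have h2 : ∀ᵐ y : E2, ∃ a ∈ A, y - a ∈ E := by
    have h3 := h.1
    rw [ae_iff]
    refine measure_mono_null ?_ h3
    intro y hy
    simp only [Set.mem_compl_iff, Set.mem_iUnion, Set.mem_ofPred_eq, exists_prop]
    exact hy
  obtain ⟨y, hy, a, ha, hya⟩ := exists_mem_box h2 x hε
  have h4 := h1 y hy
  have h5 : cnt A E x ≠ 0 := by
    rw [← h4]
    exact (lt_of_lt_of_le one_pos (one_le_cnt ha hya)).ne'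
  exact mem_of_cnt_ne_zero h5

/-- horizontal lemma -/
theorem exists_h (p q : ℝ) (h : |p - q| < 1) : ∃ t : ℝ, (p ≤ t ∧ t < p + 1) ∧ (q ≤ t ∧ t < q + 1) ∧
    ¬ (3 / 8 ≤ t - p ∧ t - p < 5 / 8) ∧ ¬ (3 / 8 ≤ t - q ∧ t - q < 5 / 8) := by
  have key : ∀ p q : ℝ, |p - q| < 1 → p ≤ q → ∃ t : ℝ, (p ≤ t ∧ t < p + 1) ∧ (q ≤ t ∧ t < q + 1) ∧
    ¬ (3 / 8 ≤ t - p ∧ t - p < 5 / 8) ∧ ¬ (3 / 8 ≤ t - q ∧ t - q < 5 / 8) := by
    intro p q h hpq
    have h1 := abs_lt.1 h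
    rcases lt_or_ge (q - p) (3 / 8) with h2 | h2
    · refine ⟨q + 5 / 8, ⟨by linarith, by linarith⟩, ⟨by linarith, by linarith⟩, ?_, ?_⟩
      · rintro ⟨_, h4⟩; linarith
      · rintro ⟨_, h4⟩; linarith
    · rcases lt_or_ge (q - p) (5 / 8) with h3 | h3
      · refine ⟨p + 5 / 8, ⟨by linarith, by linarith⟩, ⟨by linarith, by linarith⟩, ?_, ?_⟩
        · rintro ⟨_, h4⟩; linarith
        · rintro ⟨h4, _⟩; linarith
      · refine ⟨q, ⟨by linarith, by linarith⟩, ⟨by linarith, by linarith⟩, ?_, ?_⟩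
        · rintro ⟨_, h4⟩; linarith
        · rintro ⟨h4, _⟩; linarith
  rcases le_total p q with hpq | hpq
  · exact key p q h hpq
  · obtain ⟨t, h1, h2, h3, h4⟩ := key q p (by rw [abs_sub_comm]; exact h) hpq
    exact ⟨t, h2, h1, h4, h3⟩

/-- disjointness passes from `Om` to `K` -/
theorem K_disj {T : Set H} {v : ℝ} {A : Set E2}
    (hd : ∀ a ∈ A, ∀ b ∈ A, ∀ x, x - a ∈ Om v T → x - b ∈ Om v T → a = b)
    {a b : E2} (ha : a ∈ A) (hb : b ∈ A) {x : E2} (hxa : x - a ∈ K T) (hxb : x - b ∈ K T) :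
    a = b := by
  set n : ℤ := ⌊x 0 - a 0⌋ with hn
  set m : ℤ := ⌊x 0 - b 0⌋ with hm
  have hn1 := Int.floor_le (x 0 - a 0)
  have hn2 := Int.lt_floor_add_one (x 0 - a 0)
  have hm1 := Int.floor_le (x 0 - b 0)
  have hm2 := Int.lt_floor_add_one (x 0 - b 0)
  rw [← hn] at hn1 hn2
  rw [← hm] at hm1 hm2
  have h1 : |(a 0 + n) - (b 0 + m)| < 1 := by
    rw [abs_lt]; constructor <;> linarith
  obtain ⟨t, ⟨ht1, ht2⟩, ⟨ht3, ht4⟩, ht5, ht6⟩ := exists_h _ _ h1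
  have e1 : ⌊t - a 0⌋ = n := by
    rw [Int.floor_eq_iff]; constructor <;> linarith
  have e2 : ⌊t - b 0⌋ = m := by
    rw [Int.floor_eq_iff]; constructor <;> linarith
  have f1 : Int.fract (t - a 0) = t - (a 0 + n) := by
    rw [Int.fract, e1]; ring
  have f2 : Int.fract (t - b 0) = t - (b 0 + m) := by
    rw [Int.fract, e2]; ring
  refine hd a ha b hb ![t, x 1] ?_ ?_
  · rw [mem_Om_iff]
    left
    change ¬ (3 / 8 ≤ Int.fract (t - a 0) ∧ Int.fract (t - a 0) < 5 / 8) ∧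
      ((⌊t - a 0⌋, x 1 - a 1) : H) ∈ T
    rw [f1, e1]
    exact ⟨ht5, hxa⟩
  · rw [mem_Om_iff]
    left
    change ¬ (3 / 8 ≤ Int.fract (t - b 0) ∧ Int.fract (t - b 0) < 5 / 8) ∧
      ((⌊t - b 0⌋, x 1 - b 1) : H) ∈ T
    rw [f2, e2]
    exact ⟨ht6, hxb⟩

theorem indic_identity (T : Set H) (v : ℝ) (z : E2) :
    (Om v T).indicator (fun _ => (1 : ENNReal)) z + (KQ T).indicator (fun _ => (1 : ENNReal)) z =
      (K T).indicator (fun _ => (1 : ENNReal)) z +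
        {x | x - wv v ∈ KQ T}.indicator (fun _ => (1 : ENNReal)) z := by
  classical
  have h0 : (z - wv v) 0 = z 0 := by simp [wv]
  have hdisj : z ∈ K T → z ∉ KQ T → z - wv v ∉ KQ T := by
    rintro h1 h2 ⟨_, h4⟩
    rw [h0] at h4
    exact h2 ⟨h1, h4⟩
  simp only [Set.indicator_apply]
  by_cases h1 : z ∈ K T
  · by_cases h2 : z ∈ KQ T
    · by_cases h3 : z - wv v ∈ KQ T
      · have h4 : z ∈ Om v T := Or.inr h3
        simp only [h1, h2, h4, Set.mem_ofPred_eq, h3, if_true]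
      · have h4 : z ∉ Om v T := by
          rintro (h5 | h5)
          · exact h5.2 h2
          · exact h3 h5
        simp only [h1, h2, h4, Set.mem_ofPred_eq, h3, if_true, if_false, add_zero, zero_add]
    · have h3 := hdisj h1 h2
      have h4 : z ∈ Om v T := Or.inl ⟨h1, h2⟩
      simp only [h1, h2, h4, Set.mem_ofPred_eq, h3, if_true, if_false, add_zero]
  · have h2 : z ∉ KQ T := fun h => h1 h.1
    by_cases h3 : z - wv v ∈ KQ T
    · have h4 : z ∈ Om v T := Or.inr h3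
      simp only [h1, h2, h4, Set.mem_ofPred_eq, h3, if_true, if_false, add_zero, zero_add]
    · have h4 : z ∉ Om v T := by
        rintro (h5 | h5)
        · exact h1 h5.1
        · exact h3 h5
      simp only [h1, h2, h4, Set.mem_ofPred_eq, h3, if_false, add_zero]

theorem cnt_identity (T : Set H) (v : ℝ) (A : Set E2) (x : E2) :
    cnt A (Om v T) x + cnt A (KQ T) x = cnt A (K T) x + cnt A {x | x - wv v ∈ KQ T} x := by
  unfold cnt
  rw [← ENNReal.tsum_add, ← ENNReal.tsum_add]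
  exact tsum_congr fun a => indic_identity T v _

/-- the set of translations is separated -/
theorem sepr_of_disj {T : Set H} (hT : T.Nonempty) {ε : ℝ}
    (hth : Thick ε T) {A : Set E2}
    (hd : ∀ a ∈ A, ∀ b ∈ A, ∀ x, x - a ∈ K T → x - b ∈ K T → a = b) :
    Sepr (min ε 1) A := by
  intro a ha b hb hab
  by_contra hne
  push Not at hne
  apply hab
  obtain ⟨g, hg⟩ := hT
  obtain ⟨c, d, hc, hd', hcd, hy⟩ := hth g hg
  have h0 := abs_lt.1 ((hne 0).trans_le (min_le_right _ _))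
  have h1 := abs_lt.1 ((hne 1).trans_le (min_le_left _ _))
  refine hd a ha b hb ![max (a 0) (b 0) + g.1, max (a 1) (b 1) + c] ?_ ?_
  · change ((⌊max (a 0) (b 0) + g.1 - a 0⌋, max (a 1) (b 1) + c - a 1) : H) ∈ T
    have e : ⌊max (a 0) (b 0) + g.1 - a 0⌋ = g.1 := by
      rw [Int.floor_eq_iff]
      constructor
      · linarith [le_max_left (a 0) (b 0)]
      · rcases max_cases (a 0) (b 0) with h | h <;> linarith
    rw [e]
    refine hy _ (by linarith [le_max_left (a 1) (b 1)]) ?_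
    rcases max_cases (a 1) (b 1) with h | h <;> linarith
  · change ((⌊max (a 0) (b 0) + g.1 - b 0⌋, max (a 1) (b 1) + c - b 1) : H) ∈ T
    have e : ⌊max (a 0) (b 0) + g.1 - b 0⌋ = g.1 := by
      rw [Int.floor_eq_iff]
      constructor
      · linarith [le_max_right (a 0) (b 0)]
      · rcases max_cases (a 0) (b 0) with h | h <;> linarith
    rw [e]
    refine hy _ (by linarith [le_max_right (a 1) (b 1)]) ?_
    rcases max_cases (a 1) (b 1) with h | h <;> linarith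

/-- exact consequences of a lattice periodic tiling by `Om v T` -/
theorem exact {T : Set H} (hT : IsT T) (hne : T.Nonempty) {v : ℝ} {A : Set E2}
    (h : TilesAE (Om v T) A) (hper : LatticePeriodic A) :
    (∀ x, ∃! a, a ∈ A ∧ x - a ∈ K T) ∧
      ∀ x, (∃ a ∈ A, x - a ∈ KQ T) ↔ ∃ a ∈ A, x - wv v - a ∈ KQ T := by
  obtain ⟨ε, hε, hth⟩ := hT.thick
  have hd : ∀ a ∈ A, ∀ b ∈ A, ∀ x, x - a ∈ Om v T → x - b ∈ Om v T → a = b :=
    fun a ha b hb x hxa hxb => disj_of_tilesAE (Om_RO hT v) h ha hb hxa hxb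
  have hdK : ∀ a ∈ A, ∀ b ∈ A, ∀ x, x - a ∈ K T → x - b ∈ K T → a = b :=
    fun a ha b hb x hxa hxb => K_disj hd ha hb hxa hxb
  have hsep := sepr_of_disj hne hth hdK
  have hρ : 0 < min ε 1 := lt_min hε one_pos
  have hOm1 : ∀ x, cnt A (Om v T) x = 1 := by
    intro x
    obtain ⟨a, ha, hxa⟩ := cover_of_tilesAE hρ hsep (Om_bounded hT v) (Om_RO hT v) h x
    exact cnt_eq_one ha hxa fun b hb hxb => hd b hb a ha x hxb hxa
  have hK1 : ∀ x, cnt A (K T) x ≤ 1 := fun x =>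
    cnt_le_one fun a ha b hb hxa hxb => hdK a ha b hb x hxa hxb
  have hKQ1 : ∀ x, cnt A (KQ T) x ≤ 1 := fun x =>
    cnt_le_one fun a ha b hb hxa hxb => hdK a ha b hb x hxa.1 hxb.1
  have hle : ∀ x, cnt A (KQ T) x ≤ cnt A {x | x - wv v ∈ KQ T} x := by
    intro x
    have h1 := cnt_identity T v A x
    rw [hOm1] at h1
    have h2 : 1 + cnt A (KQ T) x ≤ 1 + cnt A {x | x - wv v ∈ KQ T} x := by
      rw [h1]
      gcongr
      exact hK1 x
    exact (ENNReal.add_le_add_iff_left ENNReal.one_ne_top).1 h2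
  have heq : ∀ x, cnt A (KQ T) x = cnt A {x | x - wv v ∈ KQ T} x :=
    cnt_eq_of_le hρ hsep hper (KQ_measurable hT) (shift_measurable (KQ_measurable hT) _)
      (KQ_bounded hT) (shift_bounded (KQ_bounded hT) _) (KQ_RO hT) ((KQ_RO hT).shift _)
      (shift_volume _ _).symm hle
  have hK : ∀ x, cnt A (K T) x = 1 := by
    intro x
    have h1 := cnt_identity T v A x
    rw [hOm1, ← heq] at h1
    have h2 : cnt A (KQ T) x ≠ ⊤ := ne_top_of_le_ne_top ENNReal.one_ne_top (hKQ1 x)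
    exact ((ENNReal.add_left_inj h2).1 h1).symm
  refine ⟨fun x => cnt_eq_one_iff.1 (hK x), fun x => ?_⟩
  have h1 : (∃ a ∈ A, x - a ∈ KQ T) ↔ cnt A (KQ T) x ≠ 0 := by
    rw [Ne, cnt_eq_zero_iff]; push Not; rfl
  have h2 : (∃ a ∈ A, x - wv v - a ∈ KQ T) ↔ cnt A {x | x - wv v ∈ KQ T} x ≠ 0 := by
    rw [Ne, cnt_eq_zero_iff]; push Not
    refine exists_congr fun a => and_congr_right fun _ => ?_
    rw [show x - wv v - a = x - a - wv v by abel]
    rfl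
  rw [h1, h2, heq]

end Vale.Agent.P043.R2
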