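import Vale.Agent.P043.R2.Red.Plane

/-!
# Horizontal rigidity: the translation set of a lattice periodic tiling by `Om v T` is contained in
a translate of `ℤ × ℝ`
-/

namespace Vale.Agent.P043.R2

open MeasureTheory Vale.Agent.P043.Eu

section line

variable {L : Set ℝ} (ex : ∀ h, ∃ s ∈ L, s ≤ h ∧ h < s + 1)
  (uq : ∀ s ∈ L, ∀ s' ∈ L, ∀ h, s ≤ h → h < s + 1 → s' ≤ h → h < s' + 1 → s = s')

include ex uq

theorem line_succ {s : ℝ} (hs : s ∈ L) : s + 1 ∈ L := by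
  obtain ⟨t, ht, h1, h2⟩ := ex (s + 1)
  rcases h1.lt_or_eq with h3 | h3
  · have := uq s hs t ht t (by linarith) h3 le_rfl (by linarith)
    linarith
  · rw [← h3]; exact ht

theorem line_pred {s : ℝ} (hs : s ∈ L) : s - 1 ∈ L := by
  obtain ⟨t, ht, h1, h2⟩ := ex (s - 1)
  have h3 := line_succ ex uq ht
  have := uq s hs (t + 1) h3 s le_rfl (by linarith) (by linarith) (by linarith)
  rw [this]
  simpa using ht

theorem line_add {s : ℝ} (hs : s ∈ L) (k : ℤ) : s + k ∈ L := by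
  induction k with
  | zero => simpa using hs
  | succ n ih =>
    have := line_succ ex uq ih
    push_cast at this ⊢
    rwa [← add_assoc]
  | pred n ih =>
    have := line_pred ex uq ih
    push_cast at this ⊢
    rwa [← add_sub_assoc]

theorem line_int {s t : ℝ} (hs : s ∈ L) (ht : t ∈ L) : ∃ k : ℤ, t = s + k := by
  refine ⟨⌊t - s⌋, ?_⟩
  have h1 := Int.floor_le (t - s)
  have h2 := Int.lt_floor_add_one (t - s)
  exact (uq _ (line_add ex uq hs ⌊t - s⌋) t ht t (by linarith) (by linarith) le_rfl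
    (by linarith)).symm

end line

/-- left endpoints of the cells on the horizontal line of height `y` -/
def Ln (T : Set H) (A : Set E2) (y : ℝ) : Set ℝ :=
  {s | ∃ a ∈ A, ∃ n : ℤ, s = a 0 + n ∧ ((n, y - a 1) : H) ∈ T}

section

variable {T : Set H} {A : Set E2}

theorem Ln_ex (hK : ∀ x, ∃! a, a ∈ A ∧ x - a ∈ K T) (y : ℝ) (h : ℝ) :
    ∃ s ∈ Ln T A y, s ≤ h ∧ h < s + 1 := by
  obtain ⟨a, ⟨ha, hx⟩, _⟩ := hK ![h, y]
  have h1 : ((⌊h - a 0⌋, y - a 1) : H) ∈ T := hx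
  have h2 := Int.floor_le (h - a 0)
  have h3 := Int.lt_floor_add_one (h - a 0)
  exact ⟨a 0 + ⌊h - a 0⌋, ⟨a, ha, _, rfl, h1⟩, by linarith, by linarith⟩

theorem Ln_uq (hK : ∀ x, ∃! a, a ∈ A ∧ x - a ∈ K T) (y : ℝ) : ∀ s ∈ Ln T A y, ∀ s' ∈ Ln T A y,
    ∀ h, s ≤ h → h < s + 1 → s' ≤ h → h < s' + 1 → s = s' := by
  rintro s ⟨a, ha, n, rfl, hn⟩ s' ⟨b, hb, m, rfl, hm⟩ h h1 h2 h3 h4
  have e1 : ⌊h - a 0⌋ = n := by rw [Int.floor_eq_iff]; constructor <;> linarith
  have e2 : ⌊h - b 0⌋ = m := by rw [Int.floor_eq_iff]; constructor <;> linarith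
  have hab : a = b := by
    refine (hK ![h, y]).unique ⟨ha, ?_⟩ ⟨hb, ?_⟩
    · change ((⌊h - a 0⌋, y - a 1) : H) ∈ T
      rw [e1]; exact hn
    · change ((⌊h - b 0⌋, y - b 1) : H) ∈ T
      rw [e2]; exact hm
  subst hab
  rw [← e1, ← e2]

theorem KQ_iff (y h : ℝ) : (∃ a ∈ A, (![h, y] : E2) - a ∈ KQ T) ↔
    ∃ s ∈ Ln T A y, s + 3 / 8 ≤ h ∧ h < s + 5 / 8 := by
  constructor
  · rintro ⟨a, ha, h1, h2, h3⟩
    have h1' : ((⌊h - a 0⌋, y - a 1) : H) ∈ T := h1
    have h2' : 3 / 8 ≤ Int.fract (h - a 0) := h2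
    have h3' : Int.fract (h - a 0) < 5 / 8 := h3
    rw [Int.fract] at h2' h3'
    exact ⟨a 0 + ⌊h - a 0⌋, ⟨a, ha, _, rfl, h1'⟩, by linarith, by linarith⟩
  · rintro ⟨s, ⟨a, ha, n, rfl, hn⟩, h1, h2⟩
    have e1 : ⌊h - a 0⌋ = n := by rw [Int.floor_eq_iff]; constructor <;> linarith
    refine ⟨a, ha, ?_, ?_⟩
    · change ((⌊h - a 0⌋, y - a 1) : H) ∈ T
      rw [e1]; exact hn
    · change 3 / 8 ≤ Int.fract (h - a 0) ∧ Int.fract (h - a 0) < 5 / 8
      rw [Int.fract, e1]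
      constructor <;> linarith

variable {v : ℝ} (hK : ∀ x, ∃! a, a ∈ A ∧ x - a ∈ K T)
  (hQ : ∀ x, (∃ a ∈ A, x - a ∈ KQ T) ↔ ∃ a ∈ A, x - wv v - a ∈ KQ T)

include hK hQ

theorem Ln_shift (y : ℝ) : Ln T A y = Ln T A (y - v) := by
  have key : ∀ h, (∃ s ∈ Ln T A y, s + 3 / 8 ≤ h ∧ h < s + 5 / 8) ↔
      ∃ s ∈ Ln T A (y - v), s + 3 / 8 ≤ h ∧ h < s + 5 / 8 := by
    intro h
    rw [← KQ_iff, ← KQ_iff, hQ]
    have e : (![h, y] : E2) - wv v = ![h, y - v] := by
      funext i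
      fin_cases i
      · simp [wv]
      · simp [wv]
    rw [e]
  ext s
  constructor
  · intro hs
    obtain ⟨s', hs', h1, h2⟩ := (key (s + 3 / 8)).1 ⟨s, hs, le_rfl, by linarith⟩
    obtain ⟨s'', hs'', h3, h4⟩ := (key (s' + 3 / 8)).2 ⟨s', hs', le_rfl, by linarith⟩
    have h5 := Ln_uq hK y s hs s'' hs'' s le_rfl (by linarith) (by linarith) (by linarith)
    have h6 : s' = s := by linarith
    rw [← h6]; exact hs'
  · intro hs
    obtain ⟨s', hs', h1, h2⟩ := (key (s + 3 / 8)).2 ⟨s, hs, le_rfl, by linarith⟩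
    obtain ⟨s'', hs'', h3, h4⟩ := (key (s' + 3 / 8)).1 ⟨s', hs', le_rfl, by linarith⟩
    have h5 := Ln_uq hK (y - v) s hs s'' hs'' s le_rfl (by linarith) (by linarith) (by linarith)
    have h6 : s' = s := by linarith
    rw [← h6]; exact hs'

theorem Ln_near {ε : ℝ} (hth : Thick ε T) (hvε : 2 * v ≤ ε) {y s : ℝ}
    (hs : s ∈ Ln T A y) {y' : ℝ} (h1 : y - v ≤ y') (h2 : y' ≤ y + v) : s ∈ Ln T A y' := by
  obtain ⟨a, ha, n, rfl, hn⟩ := hs
  obtain ⟨c, d, hc, hd, hcd, hcy⟩ := hth _ hn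
  have hc' : c ≤ y - a 1 := hc
  have hd' : y - a 1 < d := hd
  have hin : ∀ z, c ≤ z - a 1 → z - a 1 < d → a 0 + (n : ℝ) ∈ Ln T A z :=
    fun z h h' => ⟨a, ha, n, rfl, hcy _ h h'⟩
  rcases lt_or_ge (y + v - a 1) d with h3 | h3
  · rcases le_total y y' with h4 | h4
    · exact hin y' (by linarith) (by linarith)
    · have := hin (y' + v) (by linarith) (by linarith)
      rw [Ln_shift hK hQ (y' + v), add_sub_cancel_right] at this
      exact this
  · have h5 : c ≤ y - v - a 1 := by linarith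
    rcases le_total y' y with h4 | h4
    · exact hin y' (by linarith) (by linarith)
    · have := hin (y' - v) (by linarith) (by linarith)
      rw [Ln_shift hK hQ y']
      exact this

theorem Ln_const (hv : 0 < v) {ε : ℝ} (hth : Thick ε T) (hvε : 2 * v ≤ ε) {y s : ℝ}
    (hs : s ∈ Ln T A y) (y' : ℝ) : s ∈ Ln T A y' := by
  have key : ∀ k : ℕ, ∀ z, |z - y| ≤ k * v → s ∈ Ln T A z := by
    intro k
    induction k with
    | zero =>
      intro z hz
      have h1 : z = y := by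
        have : |z - y| ≤ 0 := by simpa using hz
        have := abs_nonpos_iff.1 this
        linarith
      rw [h1]; exact hs
    | succ k ih =>
      intro z hz
      push_cast at hz
      have hz' := abs_le.1 hz
      rcases le_total y z with h | h
      · rcases le_total (z - v) y with h3 | h3
        · exact Ln_near hK hQ hth hvε (ih y (by simp; positivity)) (by linarith) (by linarith)
        · refine Ln_near hK hQ hth hvε (ih (z - v) ?_) (by linarith) (by linarith)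
          rw [abs_le]
          constructor <;> linarith
      · rcases le_total y (z + v) with h3 | h3
        · exact Ln_near hK hQ hth hvε (ih y (by simp; positivity)) (by linarith) (by linarith)
        · refine Ln_near hK hQ hth hvε (ih (z + v) ?_) (by linarith) (by linarith)
          rw [abs_le]
          constructor <;> linarith
  obtain ⟨k, hk⟩ := exists_nat_ge (|y' - y| / v)
  exact key k y' (by rwa [div_le_iff₀ hv] at hk)

/-- all horizontal differences are integers -/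
theorem horiz_int (hT : T.Nonempty) (hv : 0 < v) {ε : ℝ} (hth : Thick ε T) (hvε : 2 * v ≤ ε)
    {a b : E2} (ha : a ∈ A) (hb : b ∈ A) : ∃ k : ℤ, b 0 = a 0 + k := by
  obtain ⟨t, ht⟩ := hT
  have h1 : a 0 + (t.1 : ℝ) ∈ Ln T A (a 1 + t.2) :=
    ⟨a, ha, t.1, rfl, by rw [add_sub_cancel_left]; exact ht⟩
  have h2 : b 0 + (t.1 : ℝ) ∈ Ln T A (b 1 + t.2) :=
    ⟨b, hb, t.1, rfl, by rw [add_sub_cancel_left]; exact ht⟩
  have h3 := Ln_const hK hQ hv hth hvε h1 (b 1 + t.2)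
  obtain ⟨k, hk⟩ := line_int (Ln_ex hK _) (Ln_uq hK _) h3 h2
  exact ⟨k, by linarith⟩

end

/-- A lattice periodic tiling of the plane by `Om v T` gives a periodic solution in `ℤ × ℝ`. -/
theorem sol_of_tilesAE {T : Set H} (hT : IsT T) (hne : T.Nonempty) {ε : ℝ}
    (hth : Thick ε T) {v : ℝ} (hv : 0 < v) (hvε : 2 * v ≤ ε) {A : Set E2}
    (h : TilesAE (Om v T) A) (hper : LatticePeriodic A) : ∃ A' : Set H, Per A' ∧ Sol A' T := by
  obtain ⟨hK, hQ⟩ := exact hT hne h hper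
  obtain ⟨b, hb⟩ := hper
  obtain ⟨a₀, ⟨ha₀, _⟩, _⟩ := hK 0
  have hint : ∀ a ∈ A, ∃ k : ℤ, a 0 = a₀ 0 + k := fun a ha =>
    horiz_int hK hQ hne hv hth hvε ha₀ ha
  let A' : Set H := {g | (![a₀ 0 + g.1, g.2] : E2) ∈ A}
  have hA' : ∀ g : H, g ∈ A' ↔ (![a₀ 0 + g.1, g.2] : E2) ∈ A := fun g => Iff.rfl
  -- horizontal components of the periods are integers
  have hbint : ∀ i, ∃ k : ℤ, b i 0 = k := by
    intro i
    obtain ⟨k, hk⟩ := hint _ ((hb i a₀).2 ha₀)
    refine ⟨k, ?_⟩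
    rw [Pi.add_apply] at hk
    linarith
  choose k hk using hbint
  have hinv : ∀ i, ∀ g : H, ((k i, b i 1) : H) + g ∈ A' ↔ g ∈ A' := by
    intro i g
    rw [hA', hA']
    have e : (![a₀ 0 + (((k i, b i 1) : H) + g).1, (((k i, b i 1) : H) + g).2] : E2) =
        b i + ![a₀ 0 + g.1, g.2] := by
      funext j
      fin_cases j
      · change a₀ 0 + (((k i + g.1 : ℤ)) : ℝ) = b i 0 + (a₀ 0 + g.1)
        rw [hk i]; push_cast; ring
      · rfl
    rw [e]
    exact hb i _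
  refine ⟨A', ⟨(k 0, b 0 1), (k 1, b 1 1), ?_, hinv 0, hinv 1⟩, ?_⟩
  · -- determinant
    intro hdet
    have hdet' : b 0 0 * b 1 1 - b 1 0 * b 0 1 = 0 := by
      rw [hk 0, hk 1]; exact hdet
    have hli := Fintype.linearIndependent_iff.1 b.linearIndependent
    have h1 := hli ![b 1 1, -b 0 1] (by
      rw [Fin.sum_univ_two]
      funext j
      fin_cases j
      · change b 1 1 * b 0 0 + -b 0 1 * b 1 0 = 0
        linarith
      · change b 1 1 * b 0 1 + -b 0 1 * b 1 1 = 0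
        ring)
    have h2 := hli ![b 1 0, -b 0 0] (by
      rw [Fin.sum_univ_two]
      funext j
      fin_cases j
      · change b 1 0 * b 0 0 + -b 0 0 * b 1 0 = 0
        ring
      · change b 1 0 * b 0 1 + -b 0 0 * b 1 1 = 0
        linarith)
    have h3 : b 0 1 = 0 := by
      have := h1 1
      simpa using this
    have h4 : b 0 0 = 0 := by
      have := h2 1
      simpa using this
    exact b.ne_zero 0 (by
      funext j
      fin_cases j
      · exact h4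
      · exact h3)
  · intro g
    obtain ⟨a, ⟨ha, hx⟩, hu⟩ := hK ![a₀ 0 + g.1, g.2]
    obtain ⟨m, hm⟩ := hint a ha
    have hfl : ∀ m : ℤ, ⌊a₀ 0 + (g.1 : ℝ) - (a₀ 0 + m)⌋ = g.1 - m := by
      intro m
      rw [show a₀ 0 + (g.1 : ℝ) - (a₀ 0 + m) = ((g.1 - m : ℤ) : ℝ) by push_cast; ring,
        Int.floor_intCast]
    have hmem : ∀ c : H, (![a₀ 0 + g.1, g.2] : E2) - ![a₀ 0 + c.1, c.2] ∈ K T ↔ g - c ∈ T := by
      intro c
      change ((⌊a₀ 0 + (g.1 : ℝ) - (a₀ 0 + c.1)⌋, g.2 - c.2) : H) ∈ T ↔ g - c ∈ T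
      rw [hfl]
      rfl
    have ea : a = ![a₀ 0 + ((m, a 1) : H).1, ((m, a 1) : H).2] := by
      funext j
      fin_cases j
      · exact hm
      · rfl
    refine ⟨(m, a 1), ⟨?_, ?_⟩, ?_⟩
    · rw [hA', ← ea]; exact ha
    · rw [← hmem, ← ea]; exact hx
    · rintro c ⟨hc, hgc⟩
      have h1 := hu _ ⟨hc, (hmem c).2 hgc⟩
      have h2 : a₀ 0 + (c.1 : ℝ) = a 0 := congrFun h1 0
      have h3 : c.2 = a 1 := congrFun h1 1
      rw [hm] at h2
      refine Prod.ext ?_ h3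
      have : (c.1 : ℝ) = m := by linarith
      exact_mod_cast this

/-- from one tile of `ℤ × ℝ` to the plane -/
theorem plane_of_single {T : Set H} (hT : IsT T) (hex : ∃ A, Sol A T)
    (hno : ¬ ∃ A, Per A ∧ Sol A T) :
    ∃ Om : Set E2, Bornology.IsBounded Om ∧ MeasurableSet Om ∧ 0 < volume Om ∧
      (∃ A, TilesAE Om A) ∧ ∀ A, TilesAE Om A → ¬ LatticePeriodic A := by
  obtain ⟨A, hA⟩ := hex
  obtain ⟨ε, hε, hth⟩ := hT.thick
  have hne : T.Nonempty := by
    obtain ⟨a, ⟨_, h⟩, _⟩ := hA 0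
    exact ⟨_, h⟩
  refine ⟨Om (ε / 2) T, Om_bounded hT _, Om_measurable hT _, ?_, ⟨_, tilesAE_of_sol hA _⟩, ?_⟩
  · obtain ⟨a, ⟨_, h⟩, _⟩ := exists_tiling hA (ε / 2) 0
    exact (Om_RO hT _).pos h
  · intro B hB hper
    exact hno (sol_of_tilesAE hT hne hth (half_pos hε) (by linarith) hB hper)

end Vale.Agent.P043.R2
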