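import Vale.Agent.P043.R2.Red.Merge

/-!
# Periodic solutions of the combined tile split
-/

namespace Vale.Agent.P043.R2

open MeasureTheory Vale.Agent.P043.Eu

/-- the area of `[0,1) × T` -/
theorem volume_K {T : Set H} (hT : IsT T) : volume (K T) = len T := by
  have hK : K T = ⋃ n : ℤ, {x : E2 | ⌊x 0⌋ = n ∧ ((n, x 1) : H) ∈ T} := by
    ext x
    simp [K]
  have hsl : ∀ n : ℤ, MeasurableSet {y : ℝ | ((n, y) : H) ∈ T} := by
    intro n
    obtain ⟨s, rfl⟩ := hT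
    have e : {y : ℝ | ((n, y) : H) ∈ {g : H | ∃ p ∈ s, g.1 = p.1 ∧ p.2.1 ≤ g.2 ∧ g.2 < p.2.2}} =
        ⋃ p ∈ s, {y : ℝ | n = p.1 ∧ p.2.1 ≤ y ∧ y < p.2.2} := by
      ext y
      simp only [Set.mem_ofPred_eq, Set.mem_iUnion, exists_prop]
    rw [e]
    refine Finset.measurableSet_biUnion s fun p _ => ?_
    by_cases h : n = p.1
    · have e2 : {y : ℝ | n = p.1 ∧ p.2.1 ≤ y ∧ y < p.2.2} = Set.Ico p.2.1 p.2.2 := by
        ext y; simp [h]
      rw [e2]; exact measurableSet_Ico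
    · have e2 : {y : ℝ | n = p.1 ∧ p.2.1 ≤ y ∧ y < p.2.2} = ∅ := by
        ext y; simp [h]
      rw [e2]; exact MeasurableSet.empty
  have hpi : ∀ n : ℤ, {x : E2 | ⌊x 0⌋ = n ∧ ((n, x 1) : H) ∈ T} =
      Set.pi Set.univ (![Set.Ico (n : ℝ) (n + 1), {y : ℝ | ((n, y) : H) ∈ T}]) := by
    intro n
    ext x
    simp only [Set.mem_pi, Set.mem_univ, true_implies, Fin.forall_fin_two]
    exact and_congr Int.floor_eq_iff Iff.rfl
  have hmeas : ∀ n : ℤ, MeasurableSet {x : E2 | ⌊x 0⌋ = n ∧ ((n, x 1) : H) ∈ T} := by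
    intro n
    rw [hpi]
    refine MeasurableSet.univ_pi fun i => ?_
    fin_cases i
    · exact measurableSet_Ico
    · exact hsl n
  rw [hK, measure_iUnion _ hmeas]
  · unfold len
    refine tsum_congr fun n => ?_
    rw [hpi, volume_pi_pi, Fin.prod_univ_two]
    change volume (Set.Ico (n : ℝ) (n + 1)) * volume {y : ℝ | ((n, y) : H) ∈ T} = _
    rw [Real.volume_Ico, add_sub_cancel_left, ENNReal.ofReal_one, one_mul]
  · intro n m hnm
    rw [Function.onFun, Set.disjoint_left]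
    rintro x ⟨h1, _⟩ ⟨h2, _⟩
    exact hnm (h1.symm.trans h2)

theorem len_cl_zero (T : Set H) : len (cl 0 T) = len T := by
  have h0 : len (cl 0 T) =
      ∑ r : Fin 4, ∑' m : ℤ, volume {y : ℝ | ((4 * m + (r : ℕ), y) : H) ∈ cl 0 T} := by
    unfold len
    exact tsum_int_four _
  have hz : ∀ r : Fin 4, r ≠ 0 →
      ∑' m : ℤ, volume {y : ℝ | ((4 * m + (r : ℕ), y) : H) ∈ cl 0 T} = 0 := by
    intro r hr
    rw [ENNReal.tsum_eq_zero]
    intro m
    have e : {y : ℝ | ((4 * m + (r : ℕ), y) : H) ∈ cl 0 T} = ∅ := by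
      rw [Set.eq_empty_iff_forall_notMem]
      rintro y ⟨h1, _⟩
      have h2 : (4 * m + ((r : ℕ) : ℤ)) % 4 = 0 := h1
      have h3 : (r : ℕ) ≠ 0 := fun h => hr (Fin.ext h)
      have := r.isLt
      omega
    rw [e]
    exact measure_empty
  rw [h0, Finset.sum_eq_single (0 : Fin 4) (fun r _ hr => hz r hr) (by simp)]
  exact len_cl_eq T 0

/-- membership in a fattened set, for an integer translate -/
theorem sub_toR_mem_K (T : Set H) (x : E2) (a : H) :
    x - toR a ∈ K T ↔ ((⌊x 0⌋, x 1) : H) - a ∈ T := by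
  change ((⌊x 0 - (a.1 : ℝ)⌋, x 1 - a.2) : H) ∈ T ↔ _
  rw [Int.floor_sub_intCast]
  rfl

/-- a periodic set gives a lattice periodic set in the plane -/
theorem latticePeriodic_toR {A : Set H} (h : Per A) : LatticePeriodic (toR '' A) := by
  obtain ⟨v, w, hdet, hv, hw⟩ := h
  have hli : LinearIndependent ℝ (![toR v, toR w] : Fin 2 → E2) := by
    rw [Fintype.linearIndependent_iff]
    intro c hc
    rw [Fin.sum_univ_two] at hc
    have h0 : c 0 * (v.1 : ℝ) + c 1 * (w.1 : ℝ) = 0 := congrFun hc 0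
    have h1 : c 0 * v.2 + c 1 * w.2 = 0 := congrFun hc 1
    have e0 : c 0 * ((v.1 : ℝ) * w.2 - (w.1 : ℝ) * v.2) = 0 := by linear_combination w.2 * h0 - (w.1 : ℝ) * h1
    have e1 : c 1 * ((v.1 : ℝ) * w.2 - (w.1 : ℝ) * v.2) = 0 := by
      linear_combination (v.1 : ℝ) * h1 - v.2 * h0
    intro i
    fin_cases i
    · exact (mul_eq_zero.1 e0).resolve_right hdet
    · exact (mul_eq_zero.1 e1).resolve_right hdet
  have hrank : Fintype.card (Fin 2) = Module.finrank ℝ E2 := by simp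
  refine ⟨basisOfLinearIndependentOfCardEqFinrank hli hrank, ?_⟩
  have key : ∀ v : H, (∀ a, v + a ∈ A ↔ a ∈ A) → ∀ a, toR v + a ∈ toR '' A ↔ a ∈ toR '' A := by
    intro v hv a
    have hadd : ∀ g h : H, toR (g + h) = toR g + toR h := by
      intro g h
      funext i
      fin_cases i
      · change ((g.1 + h.1 : ℤ) : ℝ) = g.1 + h.1
        push_cast; rfl
      · rfl
    constructor
    · rintro ⟨c, hc, hca⟩
      refine ⟨-v + c, (hv _).1 (by simpa only [add_neg_cancel_left] using hc), ?_⟩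
      have h1 : toR v + toR (-v + c) = toR v + a := by
        rw [← hadd, ← hca]
        congr 1
        simp
      exact add_left_cancel h1
    · rintro ⟨c, hc, rfl⟩
      exact ⟨v + c, (hv c).2 hc, hadd _ _⟩
  intro i a
  rw [coe_basisOfLinearIndependentOfCardEqFinrank]
  fin_cases i
  · exact key v hv a
  · exact key w hw a

section split

variable {A T1 T2 : Set H}

theorem cl_shift (r : ℤ) (h0 : 0 ≤ r) (h4 : r < 4) (T : Set H) (g : H) :
    g ∈ cl r T ↔ g - (r, 0) ∈ cl 0 T := by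
  simp only [cl, Set.mem_ofPred_eq]
  have e1 : (g - ((r, 0) : H)).1 = g.1 - r := rfl
  have e2 : (g - ((r, 0) : H)).2 = g.2 := by
    change g.2 - 0 = g.2
    ring
  rw [e1, e2]
  constructor
  · rintro ⟨h1, h2⟩
    refine ⟨by omega, ?_⟩
    have e3 : (g.1 - r) / 4 = g.1 / 4 := by omega
    rw [e3]; exact h2
  · rintro ⟨h1, h2⟩
    refine ⟨by omega, ?_⟩
    have e3 : (g.1 - r) / 4 = g.1 / 4 := by omega
    rw [e3] at h2; exact h2

/-- the tile used in the residue class `r` -/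
def sel (T1 T2 : Set H) (r : ℤ) : Set H := if r = 1 then T2 else T1

theorem mem_comb_iff (T1 T2 : Set H) (g : H) :
    g ∈ comb T1 T2 ↔ ∃ r : ℤ, 0 ≤ r ∧ r < 4 ∧ g ∈ cl r (sel T1 T2 r) := by
  simp only [comb, cl, sel, Set.mem_ofPred_eq]
  constructor
  · rintro (⟨h1, h2⟩ | ⟨h1, h2⟩)
    · exact ⟨1, by norm_num, by norm_num, h1, by simpa using h2⟩
    · exact ⟨g.1 % 4, by omega, by omega, rfl, by simpa [h1] using h2⟩
  · rintro ⟨r, h0, h4, h1, h2⟩
    by_cases hr : r = 1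
    · subst hr
      exact Or.inl ⟨h1, by simpa using h2⟩
    · rw [if_neg hr] at h2
      exact Or.inr ⟨by omega, h2⟩

theorem split_uniq (h : Sol A (comb T1 T2)) {g a b : H} (ha : a ∈ A) (hb : b ∈ A) {r s : ℤ}
    (hr0 : 0 ≤ r) (hr4 : r < 4) (hs0 : 0 ≤ s) (hs4 : s < 4)
    (h1 : g - (r, 0) - a ∈ cl 0 (sel T1 T2 r)) (h2 : g - (s, 0) - b ∈ cl 0 (sel T1 T2 s)) :
    a = b ∧ r = s := by
  have e1 : g - a ∈ cl r (sel T1 T2 r) := by
    rw [cl_shift r hr0 hr4, sub_right_comm]; exact h1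
  have e2 : g - b ∈ cl s (sel T1 T2 s) := by
    rw [cl_shift s hs0 hs4, sub_right_comm]; exact h2
  have hab : a = b := (h g).unique ⟨ha, (mem_comb_iff _ _ _).2 ⟨r, hr0, hr4, e1⟩⟩
    ⟨hb, (mem_comb_iff _ _ _).2 ⟨s, hs0, hs4, e2⟩⟩
  subst hab
  exact ⟨rfl, e1.1.symm.trans e2.1⟩

theorem split_ex (h : Sol A (comb T1 T2)) (g : H) :
    ∃ a ∈ A, ∃ r : ℤ, 0 ≤ r ∧ r < 4 ∧ g - (r, 0) - a ∈ cl 0 (sel T1 T2 r) := by
  obtain ⟨a, ⟨ha, hx⟩, _⟩ := h g
  obtain ⟨r, h0, h4, h1⟩ := (mem_comb_iff _ _ _).1 hx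
  refine ⟨a, ha, r, h0, h4, ?_⟩
  rw [sub_right_comm, ← cl_shift r h0 h4]
  exact h1

theorem split_le (h : Sol A (comb T1 T2)) {v : H} (hv : ∃ a ∈ A, v - a ∈ cl 0 T1) :
    ∃ a ∈ A, v - a ∈ cl 0 T2 := by
  obtain ⟨a, ha, hva⟩ := hv
  obtain ⟨b, hb, r, h0, h4, hr⟩ := split_ex h (v + (1, 0))
  have hsel : ∀ r : ℤ, r ≠ 1 → sel T1 T2 r = T1 := fun r hr => if_neg hr
  have hcases : r = 0 ∨ r = 1 ∨ r = 2 ∨ r = 3 := by omega
  have e : ∀ s t : ℤ, v + (s, 0) - (t, 0) = v + ((s - t, 0) : H) := by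
    intro s t
    refine Prod.ext ?_ ?_
    · change v.1 + s - t = v.1 + (s - t)
      ring
    · change v.2 + 0 - 0 = v.2 + 0
      ring
  rcases hcases with rfl | rfl | rfl | rfl
  · exfalso
    have h1 := split_uniq h (g := v + (3, 0)) (r := 2) (s := 3) hb ha (by norm_num) (by norm_num)
      (by norm_num) (by norm_num) (by
        rw [hsel 2 (by norm_num), e]
        rw [hsel 0 (by norm_num), e] at hr
        simpa using hr) (by
        rw [hsel 3 (by norm_num), add_sub_cancel_right]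
        exact hva)
    exact absurd h1.2 (by norm_num)
  · refine ⟨b, hb, ?_⟩
    rw [add_sub_cancel_right] at hr
    simpa [sel] using hr
  · exfalso
    have h1 := split_uniq h (g := v + (2, 0)) (r := 3) (s := 2) hb ha (by norm_num) (by norm_num)
      (by norm_num) (by norm_num) (by
        rw [hsel 3 (by norm_num), e]
        rw [hsel 2 (by norm_num), e] at hr
        simpa using hr) (by
        rw [hsel 2 (by norm_num), add_sub_cancel_right]
        exact hva)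
    exact absurd h1.2 (by norm_num)
  · exfalso
    have h1 := split_uniq h (g := v + (0, 0)) (r := 2) (s := 0) hb ha (by norm_num) (by norm_num)
      (by norm_num) (by norm_num) (by
        rw [hsel 2 (by norm_num), e]
        rw [hsel 3 (by norm_num), e] at hr
        simpa using hr) (by
        rw [hsel 0 (by norm_num), add_sub_cancel_right]
        exact hva)
    exact absurd h1.2 (by norm_num)

theorem split_iff (hT1 : IsT T1) (hT2 : IsT T2) (hlen : len T1 = len T2)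
    (h : Sol A (comb T1 T2)) (hper : Per A) (v : H) :
    (∃ a ∈ A, v - a ∈ cl 0 T1) ↔ ∃ a ∈ A, v - a ∈ cl 0 T2 := by
  have hcomb := isT_comb hT1 hT2
  obtain ⟨ε, hε, hth⟩ := hcomb.thick
  have hne : (comb T1 T2).Nonempty := by
    obtain ⟨a, ⟨_, h'⟩, _⟩ := h 0
    exact ⟨_, h'⟩
  have hsep : Sepr (min ε 1) (toR '' A) := by
    refine sepr_of_disj hne hth ?_
    rintro _ ⟨a, ha, rfl⟩ _ ⟨b, hb, rfl⟩ x hxa hxb
    rw [sub_toR_mem_K] at hxa hxb
    rw [(h _).unique ⟨ha, hxa⟩ ⟨hb, hxb⟩]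
  have hc1 := isT_cl hT1 0 (by norm_num) (by norm_num)
  have hc2 := isT_cl hT2 0 (by norm_num) (by norm_num)
  have hvol : volume (K (cl 0 T1)) = volume (K (cl 0 T2)) := by
    rw [volume_K hc1, volume_K hc2, len_cl_zero, len_cl_zero, hlen]
  have hle : ∀ x, cnt (toR '' A) (K (cl 0 T1)) x ≤ cnt (toR '' A) (K (cl 0 T2)) x := by
    intro x
    by_cases h0 : cnt (toR '' A) (K (cl 0 T1)) x = 0
    · rw [h0]; exact bot_le
    · obtain ⟨_, ⟨a, ha, rfl⟩, hx⟩ := mem_of_cnt_ne_zero h0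
      have h1 : cnt (toR '' A) (K (cl 0 T1)) x ≤ 1 := by
        refine cnt_le_one ?_
        rintro _ ⟨c, hc, rfl⟩ _ ⟨d, hd, rfl⟩ hxc hxd
        rw [sub_toR_mem_K] at hxc hxd
        have hz : ∀ g : H, g - (0, 0) = g := fun g => sub_zero g
        have := split_uniq h (g := (⌊x 0⌋, x 1)) (r := 0) (s := 0) hc hd (by norm_num)
          (by norm_num) (by norm_num) (by norm_num) (by rw [hz]; simpa [sel] using hxc)
          (by rw [hz]; simpa [sel] using hxd)
        rw [this.1]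
      rw [sub_toR_mem_K] at hx
      obtain ⟨b, hb, hxb⟩ := split_le h ⟨a, ha, hx⟩
      rw [← sub_toR_mem_K] at hxb
      exact h1.trans (one_le_cnt ⟨b, hb, rfl⟩ hxb)
  have heq := cnt_eq_of_le (lt_min hε one_pos) hsep (latticePeriodic_toR hper) (K_measurable hc1)
    (K_measurable hc2) (K_bounded hc1) (K_bounded hc2) (K_RO hc1) (K_RO hc2) hvol hle (toR v)
  refine ⟨split_le h, ?_⟩
  rintro ⟨b, hb, hvb⟩
  have hfl : ((⌊toR v 0⌋, toR v 1) : H) = v := by
    refine Prod.ext ?_ rfl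
    change ⌊(v.1 : ℝ)⌋ = v.1
    exact Int.floor_intCast _
  have h1 : (1 : ENNReal) ≤ cnt (toR '' A) (K (cl 0 T2)) (toR v) := by
    refine one_le_cnt ⟨b, hb, rfl⟩ ?_
    rw [sub_toR_mem_K, hfl]
    exact hvb
  rw [← heq] at h1
  obtain ⟨_, ⟨a, ha, rfl⟩, hx⟩ := mem_of_cnt_ne_zero (lt_of_lt_of_le one_pos h1).ne'
  rw [sub_toR_mem_K, hfl] at hx
  exact ⟨a, ha, hx⟩

end split

end Vale.Agent.P043.R2
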