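import Vale.Agent.P043.R2.Red.Split

/-!
# From a finite system in `ℤ × ℝ` to the plane
-/

namespace Vale.Agent.P043.R2

open MeasureTheory Vale.Agent.P043.Eu

theorem dil_eq (g : H) (r : ℤ) : (4 * g.1 + r, g.2) = dil g + (r, 0) := by
  refine Prod.ext rfl ?_
  change g.2 = g.2 + 0
  ring

theorem sol_self_iff {A T : Set H} (g : H) :
    (∃! a, a ∈ A ∧ g - a ∈ comb T T) ↔
      ∃! p : H × ℤ, p.1 ∈ A ∧ 0 ≤ p.2 ∧ p.2 < 4 ∧ g - (p.2, 0) - p.1 ∈ cl 0 T := by
  have hsel : ∀ r : ℤ, sel T T r = T := fun r => by unfold sel; split_ifs <;> rfl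
  have key : ∀ a : H, g - a ∈ comb T T ↔
      ∃ r : ℤ, 0 ≤ r ∧ r < 4 ∧ g - (r, 0) - a ∈ cl 0 T := by
    intro a
    rw [mem_comb_iff]
    refine exists_congr fun r => ?_
    constructor
    · rintro ⟨h0, h4, h⟩
      rw [hsel, cl_shift r h0 h4, sub_right_comm] at h
      exact ⟨h0, h4, h⟩
    · rintro ⟨h0, h4, h⟩
      refine ⟨h0, h4, ?_⟩
      rw [hsel, cl_shift r h0 h4, sub_right_comm]
      exact h
  constructor
  · rintro ⟨a, ⟨ha, hx⟩, hu⟩
    obtain ⟨r, h0, h4, h⟩ := (key a).1 hx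
    refine ⟨(a, r), ⟨ha, h0, h4, h⟩, ?_⟩
    rintro ⟨b, s⟩ ⟨hb, hs0, hs4, h'⟩
    have hba : b = a := hu b ⟨hb, (key b).2 ⟨s, hs0, hs4, h'⟩⟩
    subst hba
    refine Prod.ext rfl ?_
    have h5 : (g.1 - r - b.1) % 4 = 0 := h.1
    have h6 : (g.1 - s - b.1) % 4 = 0 := h'.1
    change s = r
    change 0 ≤ r at h0
    change r < 4 at h4
    change 0 ≤ s at hs0
    change s < 4 at hs4
    omega
  · rintro ⟨⟨a, r⟩, ⟨ha, h0, h4, h⟩, hu⟩
    refine ⟨a, ⟨ha, (key a).2 ⟨r, h0, h4, h⟩⟩, ?_⟩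
    rintro b ⟨hb, hx⟩
    obtain ⟨s, hs0, hs4, h'⟩ := (key b).1 hx
    exact (Prod.mk.inj (hu (b, s) ⟨hb, hs0, hs4, h'⟩)).1

/-- If the two dilated tiles are hit by `A` at the same points, `A` also solves the pure
combinations. -/
theorem sol_of_split {A T1 T2 : Set H} (h : Sol A (comb T1 T2))
    (hiff : ∀ v, (∃ a ∈ A, v - a ∈ cl 0 T1) ↔ ∃ a ∈ A, v - a ∈ cl 0 T2) :
    Sol A (comb T1 T1) ∧ Sol A (comb T2 T2) := by
  have hsel1 : ∀ r : ℤ, r ≠ 1 → sel T1 T2 r = T1 := fun r hr => if_neg hr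
  have hsel2 : sel T1 T2 1 = T2 := if_pos rfl
  have hz : ∀ g : H, g - (0, 0) = g := fun g => sub_zero g
  -- uniqueness of the element of `A` for a fixed point
  have hu1 : ∀ v a b, a ∈ A → b ∈ A → v - a ∈ cl 0 T1 → v - b ∈ cl 0 T1 → a = b := by
    intro v a b ha hb h1 h2
    exact (split_uniq h (g := v) (r := 0) (s := 0) ha hb (by norm_num) (by norm_num)
      (by norm_num) (by norm_num) (by rw [hz, hsel1 0 (by norm_num)]; exact h1)
      (by rw [hz, hsel1 0 (by norm_num)]; exact h2)).1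
  have hu2 : ∀ v a b, a ∈ A → b ∈ A → v - a ∈ cl 0 T2 → v - b ∈ cl 0 T2 → a = b := by
    intro v a b ha hb h1 h2
    refine (split_uniq h (g := v + (1, 0)) (r := 1) (s := 1) ha hb (by norm_num) (by norm_num)
      (by norm_num) (by norm_num) ?_ ?_).1
    · rw [add_sub_cancel_right, hsel2]; exact h1
    · rw [add_sub_cancel_right, hsel2]; exact h2
  -- the residue is determined by the point
  let P : H → Prop := fun v => ∃ a ∈ A, v - a ∈ cl 0 T1
  have hP2 : ∀ v, P v ↔ ∃ a ∈ A, v - a ∈ cl 0 T2 := hiff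
  have hPsel : ∀ r : ℤ, ∀ v, P v ↔ ∃ a ∈ A, v - a ∈ cl 0 (sel T1 T2 r) := by
    intro r v
    by_cases hr : r = 1
    · rw [hr, hsel2]; exact hP2 v
    · rw [hsel1 r hr]
  have hPex : ∀ g : H, ∃ r : ℤ, (0 ≤ r ∧ r < 4) ∧ P (g - (r, 0)) := by
    intro g
    obtain ⟨a, ha, r, h0, h4, hr⟩ := split_ex h g
    exact ⟨r, ⟨h0, h4⟩, (hPsel r _).2 ⟨a, ha, hr⟩⟩
  have hPuniq : ∀ (g : H) (r s : ℤ), (0 ≤ r ∧ r < 4) → (0 ≤ s ∧ s < 4) → P (g - (r, 0)) →
      P (g - (s, 0)) → r = s := by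
    intro g r s hr hs h1 h2
    obtain ⟨a, ha, h1⟩ := (hPsel r _).1 h1
    obtain ⟨b, hb, h2⟩ := (hPsel s _).1 h2
    exact (split_uniq h ha hb hr.1 hr.2 hs.1 hs.2 h1 h2).2
  have final : ∀ T : Set H, (∀ v, P v ↔ ∃ a ∈ A, v - a ∈ cl 0 T) →
      (∀ v a b, a ∈ A → b ∈ A → v - a ∈ cl 0 T → v - b ∈ cl 0 T → a = b) →
      Sol A (comb T T) := by
    intro T hT hu g
    rw [sol_self_iff]
    obtain ⟨r, hr, hPr⟩ := hPex g
    obtain ⟨a, ha, hx⟩ := (hT _).1 hPr
    refine ⟨(a, r), ⟨ha, hr.1, hr.2, hx⟩, ?_⟩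
    rintro ⟨b, s⟩ ⟨hb, hs0, hs4, h'⟩
    have hs : s = r := hPuniq g s r ⟨hs0, hs4⟩ hr ((hT _).2 ⟨b, hb, h'⟩) hPr
    subst hs
    exact Prod.ext (hu _ b a hb ha h' hx) rfl
  exact ⟨final T1 (fun _ => Iff.rfl) hu1, final T2 hP2 hu2⟩

theorem split_sol {A T1 T2 : Set H} (hT1 : IsT T1) (hT2 : IsT T2) (hlen : len T1 = len T2)
    (h : Sol A (comb T1 T2)) (hper : Per A) : Sol A (comb T1 T1) ∧ Sol A (comb T2 T2) :=
  sol_of_split h (split_iff hT1 hT2 hlen h hper)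

/-- merging a finite list of tiles -/
theorem merge_list (n : ℕ) : ∀ (L : List (Set H)) (T0 : Set H) (l : ENNReal), L.length = n →
    (∀ T ∈ T0 :: L, IsT T ∧ len T = l) →
    (∃ A, ∀ T ∈ T0 :: L, Sol A T) →
    (¬ ∃ A, Per A ∧ ∀ T ∈ T0 :: L, Sol A T) →
    ∃ T, IsT T ∧ (∃ A, Sol A T) ∧ ¬ ∃ A, Per A ∧ Sol A T := by
  induction n with
  | zero =>
    intro L T0 l hL h1 h2 h3
    have hL' : L = [] := List.length_eq_zero_iff.1 hL
    subst hL'
    refine ⟨T0, (h1 T0 (by simp)).1, ?_, ?_⟩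
    · obtain ⟨A, hA⟩ := h2
      exact ⟨A, hA T0 (by simp)⟩
    · rintro ⟨A, hA, hs⟩
      exact h3 ⟨A, hA, by simpa using hs⟩
  | succ n ih =>
    intro L T0 l hL h1 h2 h3
    obtain ⟨T1, L, rfl⟩ := List.exists_cons_of_length_eq_add_one hL
    refine ih (L.map (comb T0)) (comb T0 T1) (3 * l + l) (by simpa using hL) ?_ ?_ ?_
    · intro T hT
      have : ∃ T' ∈ T1 :: L, comb T0 T' = T := by
        rw [← List.mem_map]
        simpa using hT
      obtain ⟨T', hT', rfl⟩ := this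
      have hT'' := h1 T' (List.mem_cons_of_mem _ hT')
      have hT0 := h1 T0 (by simp)
      exact ⟨isT_comb hT0.1 hT''.1, by rw [len_comb, hT0.2, hT''.2]⟩
    · obtain ⟨A, hA⟩ := h2
      refine ⟨dil '' A, ?_⟩
      intro T hT
      have : ∃ T' ∈ T1 :: L, comb T0 T' = T := by
        rw [← List.mem_map]
        simpa using hT
      obtain ⟨T', hT', rfl⟩ := this
      exact sol_comb (hA T0 (by simp)) (hA T' (List.mem_cons_of_mem _ hT'))
    · rintro ⟨A, hA, hs⟩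
      have h4 : ∀ T' ∈ T1 :: L, Sol A (comb T0 T0) ∧ Sol A (comb T' T') := by
        intro T' hT'
        have hT'' := h1 T' (List.mem_cons_of_mem _ hT')
        have hT0 := h1 T0 (by simp)
        refine split_sol hT0.1 hT''.1 (hT0.2.trans hT''.2.symm) (hs _ ?_) hA
        have : comb T0 T' ∈ (T1 :: L).map (comb T0) := List.mem_map_of_mem hT'
        simpa using this
      refine h3 ⟨pull A, per_pull hA, ?_⟩
      intro T hT
      rcases List.mem_cons.1 hT with rfl | hT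
      · exact sol_pull (h4 T1 (by simp)).1
      · exact sol_pull (h4 T hT).2

/-- **Reduction theorem.** A finite system of tiles of `ℤ × ℝ` of the same total length, which has
a common solution but no common solution invariant under two linearly independent vectors, gives a
bounded measurable set in the plane which tiles, but never with a lattice periodic set of
translations. -/
theorem plane_of_system (S : Set (Set H)) (hfin : S.Finite) (hne : S.Nonempty) (l : ENNReal)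
    (hS : ∀ T ∈ S, IsT T ∧ len T = l) (hex : ∃ A, ∀ T ∈ S, Sol A T)
    (hno : ¬ ∃ A, Per A ∧ ∀ T ∈ S, Sol A T) :
    ∃ Om : Set (Fin 2 → ℝ), Bornology.IsBounded Om ∧ MeasurableSet Om ∧ 0 < volume Om ∧
      (∃ A, TilesAE Om A) ∧ ∀ A, TilesAE Om A → ¬ LatticePeriodic A := by
  classical
  obtain ⟨T0, hT0⟩ := hne
  have hmem : ∀ T, T ∈ T0 :: hfin.toFinset.toList ↔ T ∈ S := by
    intro T
    simp only [List.mem_cons, Finset.mem_toList, Set.Finite.mem_toFinset]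
    constructor
    · rintro (rfl | h)
      · exact hT0
      · exact h
    · exact fun h => Or.inr h
  obtain ⟨T, hT, hT1, hT2⟩ := merge_list _ hfin.toFinset.toList T0 l rfl
    (fun T hT => hS T ((hmem T).1 hT))
    (by obtain ⟨A, hA⟩ := hex; exact ⟨A, fun T hT => hA T ((hmem T).1 hT)⟩)
    (by rintro ⟨A, hA, hs⟩; exact hno ⟨A, hA, fun T hT => hs T ((hmem T).2 hT)⟩)
  exact plane_of_single hT hT1 hT2

end Vale.Agent.P043.R2
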